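import Crest.Agent.N49.Pk.Cn1
import Crest.Agent.N49.Su.Df2

/-!
# Row 49 (helper60): the cancellation of the top parts
-/

set_option autoImplicit false
set_option linter.unusedSectionVars false

open MvPolynomial Finset

noncomputable section

namespace Crest.Agent.N49.Pk.Cn

open Tw Sd Sw Su

variable {C σ τ L I κ : Type} [Fintype σ] [DecidableEq σ] [Fintype τ] [DecidableEq τ] [Fintype L]
  [DecidableEq L] [Fintype I] [DecidableEq I] [Fintype κ] [DecidableEq κ] {l : ℕ}

theorem sbq_eq (B : Bk (VV C σ) σ) (col : τ → σ) (W : Finset (τ →₀ ℕ)) (φ : τ → σ → ℤ)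
    (P : MvPolynomial (VV C σ ⊕ B.N) ℝ) : sbq B col W φ P = aeval (sbb B col W φ) P := rfl

theorem supp_le (μ : σ →₀ ℕ) : #μ.support ≤ μ.degree := by
  rw [Finsupp.degree_apply, card_eq_sum_ones]
  exact sum_le_sum fun a h => Nat.one_le_iff_ne_zero.2 (Finsupp.mem_support_iff.1 h)

theorem deg_le {μ : σ →₀ ℕ} (h : ∀ a, μ a ≤ 1) : μ.degree ≤ #μ.support := by
  rw [Finsupp.degree_apply, card_eq_sum_ones]
  exact sum_le_sum fun a _ => h a

theorem eq_of_deg {μ ν : σ →₀ ℕ} (h : μ ≤ ν) (k : ν.degree ≤ μ.degree) : μ = ν := by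
  obtain ⟨ρ, rfl⟩ := exists_add_of_le h
  rw [map_add] at k
  rw [(Finsupp.degree_eq_zero_iff ρ).1 (by omega), add_zero]

theorem map_comap {i : σ → τ} (hi : Function.Injective i) (μ : τ →₀ ℕ) :
    (μ.comapDomain i hi.injOn).mapDomain i ≤ μ := fun t => by
  by_cases h : t ∈ Set.range i
  · obtain ⟨a, rfl⟩ := h
    exact (Finsupp.mapDomain_apply hi _ _).le
  · exact (Finsupp.mapDomain_of_notMem_range _ _ h).trans_le (Nat.zero_le _)

theorem comap_le {i : σ → τ} (hi : Function.Injective i) {col : τ → σ} (hc : ∀ a, col (i a) = a)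
    (μ : τ →₀ ℕ) : μ.comapDomain i hi.injOn ≤ μ.mapDomain col := fun a => by
  have := le_map (col := col) μ (i a)
  rwa [hc] at this

/-- a word whose part in the directions meets all its blocks is a word of directions -/
theorem full_dir {i : σ → τ} (hi : Function.Injective i) {col : τ → σ} (hc : ∀ a, col (i a) = a)
    {blk : σ → L} {μ : τ →₀ ℕ} (h1 : ∀ ℓ, (μ.mapDomain col).mapDomain blk ℓ ≤ 1)
    (h : ((μ.comapDomain i hi.injOn).mapDomain blk).support =
      ((μ.mapDomain col).mapDomain blk).support) : μ = (μ.mapDomain col).mapDomain i := by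
  have a := deg_le h1
  have b := supp_le ((μ.comapDomain i hi.injOn).mapDomain blk)
  rw [← h] at a
  rw [← eq_of_deg (comap_le hi hc μ) (by
    simp only [Finsupp.degree_mapDomain] at a b ⊢; omega)]
  exact (eq_of_deg (map_comap hi μ) (by
    simp only [Finsupp.degree_mapDomain] at a b ⊢; omega)).symm

variable (q : Gq σ I κ l)

/-- the multipliers of the vertex -/
def k0 : σ ⊕ κ × Bool → ℕ := Sum.elim (fun _ => 1) fun h => if h.2 then 0 else q.mc
/-- the multipliers of the differences -/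
def k2 : σ ⊕ κ × Bool → ℤ :=
  Sum.elim (fun a => if a = q.x then 1 else 0) fun h => if h.2 then -1 else 1

theorem r0_eq : (q.r0 fun _ => false) = mm q.cl fun t => k0 q t := by
  funext t
  rcases t with a | ⟨k, _ | _⟩ <;> simp [Gq.r0, k0, Gq.cl, mm]

theorem r2_eq : q.r2 = mm q.cl (k2 q) := by
  funext t
  rcases t with a | ⟨k, _ | _⟩
  · by_cases h : a = q.x <;> simp [Gq.r2, k2, Gq.cl, mm, h]
  · simp [Gq.r2, k2, Gq.cl, mm]
  · simp [Gq.r2, k2, Gq.cl, mm, Pi.single_neg]

theorem kp_sum {ι : Type} (k : τ → ℤ) (s : Finset ι) (f : ι → τ →₀ ℕ) :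
    kp k (∑ j ∈ s, f j) = ∏ j ∈ s, kp k (f j) := by
  classical
  induction s using Finset.induction_on with
  | empty => exact kp_zero k
  | insert j s h ih => rw [sum_insert h, prod_insert h, kp_add, ih]

theorem kp_w {i : σ → σ ⊕ κ × Bool} (k : σ ⊕ κ × Bool → ℤ) (e : Fin l → κ) :
    kp k ((q.w e).mapDomain i) = k (i q.x) * ∏ j, k (i (q.kp (e j))) := by
  rw [Gq.w, Finsupp.mapDomain_add, Finsupp.mapDomain_finsetSum, kp_add, kp_sum]
  simp only [Finsupp.mapDomain_single, kp_single, pow_one]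

variable {q} {B : Bk (VV C σ) σ} {W : Finset (σ ⊕ κ × Bool →₀ ℕ)} {blk : σ → L}
  {i : σ → σ ⊕ κ × Bool}

/-- **CANC**: the top parts cancel -/
theorem canc1 (hi : Function.Injective i) (hc : ∀ a, q.cl (i a) = a) (ix : i q.x = .inl q.x)
    (ik : ∀ k, i (q.kp k) = .inr (k, false)) (hx : ∀ k, q.kp k ≠ q.x) {q' : Finset L → Prop}
    {U : Finset L} (dn : ∀ S S', S' ⊆ S → q' S → q' S') (lt : ∀ S, S ⊂ U → q' S)
    {lo : MvPolynomial (VV C σ ⊕ B.N) ℝ} {P : I → MvPolynomial (VV C σ ⊕ B.N) ℝ} (J : Finset I)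
    (h0 : Tyf blk q.x B (fun μ => q' (μ.mapDomain blk).support) lo)
    (hP : ∀ j ∈ J, Tyf blk q.x B (· = q.w (q.ec j)) (P j))
    (hU : ∀ j ∈ J, ((q.w (q.ec j)).mapDomain blk).support = U) :
    Tyf (blk ∘ q.cl) (i q.x) (sp B q.cl W)
      (fun μ => q' ((μ.comapDomain i hi.injOn).mapDomain blk).support)
      (sbq B q.cl W (q.r0 fun _ => false) (lo + ∑ j ∈ J, P j) -
        ∑ j ∈ J, ((q.mc : ℝ) ^ l) • sbq B q.cl W q.r2 (P j)) := by
  have one : ∀ t, q.cl t = q.cl (i q.x) → t = i q.x := fun t e => by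
    rw [hc] at e
    rcases t with a | h
    · rw [ix]; exact congrArg _ e
    · exact absurd e (hx _)
  have sub : ∀ μ : σ ⊕ κ × Bool →₀ ℕ, ((μ.comapDomain i hi.injOn).mapDomain blk).support ⊆
      ((μ.mapDomain q.cl).mapDomain blk).support := fun μ =>
    Finsupp.support_mono (Finsupp.mapDomain_mono (comap_le hi hc μ))
  simp only [sbq_eq, r0_eq, r2_eq, map_add, map_sum, add_sub_assoc, ← sum_sub_distrib]
  refine tyf_add (tyf_mono (tyf_sbb h0 (hc _) one _) fun μ _ _ k => dn _ _ (sub μ) k.2)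
    (tyf_sum _ fun j hj => tyf_mono (tyf_canc (hP j hj) (hc _) one _ _ _) fun μ t _ k => ?_)
  refine lt _ (hU j hj ▸ k.2 ▸ ssubset_of_subset_of_ne (sub μ) fun e => k.1 ?_)
  rw [Finsupp.mapDomain_comp] at t
  rw [full_dir hi hc t e, k.2, kp_w, kp_w, ix]
  simp [ik, k0, k2]

/-- the words with the block set `U` are split off -/
theorem split_top {x : σ} {qq q' : Finset L → Prop} {U : Finset L}
    (or : ∀ S, qq S → q' S ∨ S = U) {Γ : MvPolynomial (VV C σ ⊕ B.N) ℝ}
    (h : Tyf blk x B (fun μ => qq (μ.mapDomain blk).support) Γ) (J : Finset (Finset σ))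
    (hJ : ∀ E : Finset σ, x ∈ E → Set.InjOn blk E → E.image blk = U → E ∈ J) :
    Tyf blk x B (fun μ => q' (μ.mapDomain blk).support) (Γ - ∑ E ∈ J, cw B E Γ) := by
  classical
  have we : ∀ E : Finset σ, wE E = Sy.ind E := fun E => by
    ext a; simp [wE, Sy.ind_apply, Finsupp.finsetSum_apply, Finsupp.single_apply]
  have cf : ∀ m, coeff m (Γ - ∑ E ∈ J, cw B E Γ) =
      if ∃ E ∈ J, Finsupp.weight (B.wg Prod.snd) m = wE E then 0 else coeff m Γ := fun m => by
    rw [coeff_sub, coeff_sum]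
    simp only [cw, coeff_weightedHomogeneousComponent]
    split_ifs with e
    · obtain ⟨E, a, b⟩ := e
      rw [sum_eq_single_of_mem E a fun E' _ n => if_neg fun z => n (Sy.ind_inj (by
        rw [← we, ← we, ← z, b])), if_pos b, sub_self]
    · rw [sum_eq_zero fun E a => if_neg fun z => e ⟨E, a, z⟩, sub_zero]
  have k : ∀ m ∈ (Γ - ∑ E ∈ J, cw B E Γ).support, m ∈ Γ.support ∧
      ¬ ∃ E ∈ J, Finsupp.weight (B.wg Prod.snd) m = wE E := fun m a => by
    have := mem_support_iff.1 a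
    rw [cf] at this
    split_ifs at this with e
    exacts [absurd rfl this, ⟨mem_support_iff.2 this, e⟩]
  refine ⟨(tyf_sub h fun m a => (k m a).1).live, fun m a => ?_⟩
  obtain ⟨t1, t2, t3⟩ := h.ty m (k m a).1
  refine ⟨t1, t2, (or _ t3).resolve_right fun e => (k m a).2 ?_⟩
  generalize Finsupp.weight (B.wg Prod.snd) m = μ at t1 t2 e
  have sq : ∀ a, μ a ≤ 1 := fun a => (le_map (col := blk) μ a).trans (t1 _)
  have im : (μ.mapDomain blk).support = μ.support.image blk :=
    subset_antisymm Finsupp.mapDomain_support fun ℓ z => by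
      obtain ⟨a, z1, rfl⟩ := mem_image.1 z
      exact Finsupp.mem_support_iff.2 fun z2 => Finsupp.mem_support_iff.1 z1
        (Nat.le_zero.1 ((le_map (col := blk) μ a).trans_eq z2))
  refine ⟨μ.support, hJ _ (Finsupp.mem_support_iff.2 (by omega)) (injOn_of_card_image_eq
    (le_antisymm card_image_le ?_)) (im ▸ e), ?_⟩
  · have a := deg_le t1
    rw [Finsupp.degree_mapDomain, im] at a
    exact (supp_le μ).trans a
  · rw [we]
    ext a
    have := sq a
    rw [Sy.ind_apply]
    split_ifs with z <;> simp only [Finsupp.mem_support_iff] at z <;> omega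

end Crest.Agent.N49.Pk.Cn

end
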