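import Crest.Agent.N49.Pk.Defs
import Crest.Agent.N49.Pk.Cn2

/-!
# Row 49 (helper60): CANC
-/

set_option autoImplicit false

open MvPolynomial Finset

noncomputable section

namespace Crest.Agent.N49.Pk

open Tw Sd Sw Cn

theorem canc : CANC := by
  intro τ τ' L C I D _ _ _ _ _ _ _ _ s n W blk x W' col i hi m k c c0 f U' Bt Γ p p' U dd E sg d ge gw
    gj rm _ h
  classical
  have one : ∀ t, col t = col (i x) → t = i x := fun t e => ge.al'.one t (congrArg blk e)
  have sub : ∀ μ : τ' →₀ ℕ, ((μ.comapDomain i hi.injOn).mapDomain blk).support ⊆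
      ((μ.mapDomain col).mapDomain blk).support := fun μ =>
    Finsupp.support_mono (Finsupp.mapDomain_mono (comap_le hi ge.ci μ))
  have h0 := split_top rm.or h ((univ.filter (dd · = d)).image E) fun A _ a b => by
    obtain ⟨j, hj, -⟩ := gw.uq d A ((ge.al.mem A).2 a) b
    exact mem_image.2 ⟨j, by simp [hj.1], hj.2⟩
  rw [sum_image fun j a j' a' e => (gw.uq d _ (gw.mem j).1 (gw.mem j).2).unique
    ⟨(mem_filter.1 a).2, rfl⟩ ⟨(mem_filter.1 a').2, e.symm⟩] at h0
  have kw : ∀ (r : τ' → ℤ) (A : Finset τ), kp r ((wE A).mapDomain i) = ∏ a ∈ A, r (i a) :=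
    fun r A => by
      rw [wE, Finsupp.mapDomain_finsetSum, kp_sum]
      simp only [Finsupp.mapDomain_single, kp_single, pow_one]
  have e : Su.sbq Bt col U' (mm col fun t => k t) Γ - gr Bt col U' dd E sg f c0 d Γ =
      aeval (sbb Bt col U' (mm col fun t => k t)) (Γ - ∑ j with dd j = d, cw Bt (E j) Γ) +
      ∑ j with dd j = d, (aeval (sbb Bt col U' (mm col fun t => k t)) (cw Bt (E j) Γ) -
        ((c0 : ℝ) * f) • aeval (sbb Bt col U' (mm col sg)) (cw Bt (E j) Γ)) := by
    simp only [gr, sbq_eq, map_sub, map_sum, sum_sub_distrib, smul_sum, smul_smul]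
    ring
  rw [e]
  refine tyf_add (tyf_mono (tyf_sbb h0 (ge.ci _) one _) fun μ _ _ z => rm.dn _ _ (sub μ) z.2)
    (tyf_sum _ fun j _ => tyf_mono (tyf_canc (tyf_cw h (E j)) (ge.ci _) one _ _ _)
      fun μ t _ z => ?_)
  have u : ((μ.mapDomain col).mapDomain blk).support = U := by
    have : wE (E j) = Sy.ind (E j) := by
      ext a; simp [wE, Sy.ind_apply, Finsupp.finsetSum_apply, Finsupp.single_apply]
    rw [z.2.2, this, ← (gw.mem j).2]
    exact subset_antisymm Finsupp.mapDomain_support fun ℓ y => by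
      obtain ⟨a, y1, rfl⟩ := mem_image.1 y
      exact Finsupp.mem_support_iff.2 fun y2 => by
        have := (le_map (col := blk) (Sy.ind (E j)) a).trans_eq y2
        rw [Sy.ind_apply, if_pos y1] at this
        omega
  refine rm.lt _ (u ▸ ssubset_of_subset_of_ne (sub μ) fun y => z.1 ?_)
  rw [Finsupp.mapDomain_comp] at t
  rw [full_dir hi ge.ci t y, z.2.2, kw, kw, prod_eq_one (gj.sg j), ← Nat.cast_prod, gj.c0 j]
  simp

end Crest.Agent.N49.Pk

end
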