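import Crest.Agent.N49.Sw.Df4
import Crest.Agent.N49.Md.Uft

/-!
# Row 49 (helper60): substitutions of letters in forms with brackets
-/

set_option autoImplicit false
set_option linter.unusedSectionVars false

open MvPolynomial Finset

noncomputable section

namespace Crest.Agent.N49.Pk.Cn

open Tw Sd Sw

variable {C σ τ V : Type} [Fintype σ] [DecidableEq σ] [DecidableEq τ]

/-- monomial substitutions -/
abbrev mm (col : τ → σ) (k : τ → ℤ) : τ → σ → ℤ := fun t => Pi.single (col t) (k t)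

/-- the multiplier of a word -/
def kp (k : τ → ℤ) (μ : τ →₀ ℕ) : ℤ := μ.prod fun t n => k t ^ n

theorem kp_zero (k : τ → ℤ) : kp k 0 = 1 := Finsupp.prod_zero_index

theorem kp_add (k : τ → ℤ) (μ ν : τ →₀ ℕ) : kp k (μ + ν) = kp k μ * kp k ν :=
  Finsupp.prod_add_index' (fun _ => pow_zero _) fun _ _ _ => pow_add _ _ _

theorem kp_single (k : τ → ℤ) (t : τ) (n : ℕ) : kp k (Finsupp.single t n) = k t ^ n :=
  Finsupp.prod_single_index (h := fun t n => k t ^ n) (pow_zero _)

theorem kp_smul (k : τ → ℤ) (μ : τ →₀ ℕ) (n : ℕ) : kp k (n • μ) = kp k μ ^ n := by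
  induction n with
  | zero => rw [zero_nsmul, pow_zero, kp_zero]
  | succ n ih => rw [succ_nsmul, kp_add, ih, pow_succ]

theorem kp_one (μ : τ →₀ ℕ) : kp 1 μ = 1 := by simp [kp, Finsupp.prod]

theorem kp_ne {k : τ → ℤ} {μ : τ →₀ ℕ} (h : kp k μ ≠ 0) {t : τ} (ht : μ t ≠ 0) : k t ≠ 0 :=
  fun e => h (prod_eq_zero (Finsupp.mem_support_iff.2 ht) (by beta_reduce; rw [e, zero_pow ht]))

theorem kp_congr {k k' : τ → ℤ} {μ : τ →₀ ℕ} (h : ∀ t, μ t ≠ 0 → k t = k' t) : kp k μ = kp k' μ :=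
  prod_congr rfl fun t ht => by beta_reduce; rw [h t (Finsupp.mem_support_iff.1 ht)]

theorem kp_weight (k : τ → ℤ) (t : V → τ →₀ ℕ) (m : V →₀ ℕ) :
    kp k (Finsupp.weight t m) = m.prod fun v n => kp k (t v) ^ n := by
  induction m using Finsupp.induction_linear with
  | zero => rw [map_zero, kp_zero, Finsupp.prod_zero_index]
  | add f g hf hg =>
    rw [map_add, kp_add, hf, hg,
      Finsupp.prod_add_index' (fun _ => pow_zero _) fun _ _ _ => pow_add _ _ _]
  | single v n =>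
    rw [Finsupp.weight_single, kp_smul,
      Finsupp.prod_single_index (h := fun v n => kp k (t v) ^ n) (pow_zero _)]

theorem smat_mm (col : τ → σ) (k : τ → ℤ) (ν : σ →₀ ℕ) (μ : τ →₀ ℕ) :
    smat (mm col k) ν μ = if μ.mapDomain col = ν then kp k μ else 0 := by
  have : lsub (mm col k) (monomial μ (1 : ℤ)) = monomial (μ.mapDomain col) (kp k μ) := by
    induction μ using Finsupp.induction_linear with
    | zero => simp [kp_zero]
    | add f g hf hg =>
      rw [← mul_one (1 : ℤ), ← monomial_mul, map_mul, hf, hg, monomial_mul, Finsupp.mapDomain_add,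
        kp_add]
    | single t n =>
      rw [← X_pow_eq_monomial, map_pow, lsub, aeval_X, sum_eq_single (col t) (fun a _ e => by
        simp [Pi.single_eq_of_ne e]) (by simp), Finsupp.mapDomain_single, kp_single,
        ← C_mul_X_pow_eq_monomial]
      simp [mul_pow]
  rw [smat, this, coeff_monomial]

/-- every monomial is multiplied by the multiplier of its word -/
def scw (t : V → τ →₀ ℕ) (k : τ → ℤ) : MvPolynomial V ℝ →ₐ[ℝ] MvPolynomial V ℝ :=
  Md.scl fun v => (kp k (t v) : ℝ)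

theorem coeff_scw (t : V → τ →₀ ℕ) (k : τ → ℤ) (Q : MvPolynomial V ℝ) (m : V →₀ ℕ) :
    coeff m (scw t k Q) = kp k (Finsupp.weight t m) * coeff m Q := by
  rw [scw, Md.Uf.coeff_scl, kp_weight, Finsupp.prod, Finsupp.prod]
  push_cast
  rfl

variable (B : Bk (VV C σ) σ) (col : τ → σ) (W : Finset (τ →₀ ℕ))

/-- **the substitution of the letters** on coordinates and brackets -/
def sbb (φ : τ → σ → ℤ) : VV C σ ⊕ B.N → MvPolynomial (VV C τ ⊕ (sp B col W).N) ℝ :=
  Sum.elim (fun v => ∑ μ ∈ W, (smat φ v.2 μ : ℝ) • X (.inl (v.1, μ))) fun a =>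
    ∑ x : (sp B col W).N with x.1.1 = a, (smat φ (B.wd a) x.1.2.1 : ℝ) • X (.inr x)

theorem eval_sbb (φ : τ → σ → ℤ) (z : VV C τ → ℝ) (n : (sp B col W).N → ℝ)
    (P : MvPolynomial (VV C σ ⊕ B.N) ℝ) : eval (Sum.elim z n) (aeval (sbb B col W φ) P) =
    eval (Sum.elim (sbv φ W z) fun a => ∑ x : (sp B col W).N with x.1.1 = a,
      (smat φ (B.wd a) x.1.2.1 : ℝ) * n x) P := by
  rw [Sd.eval_aeval]
  refine congrArg (fun z => eval z P) (funext fun v => ?_)
  cases v <;> simp [sbb, sbv, smul_eval]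

theorem sbb_mm (k : τ → ℤ) (P : MvPolynomial (VV C σ ⊕ B.N) ℝ) :
    aeval (sbb B col W (mm col k)) P =
      scw ((sp B col W).wg Prod.snd) k (aeval (sbb B col W (mm col 1)) P) := by
  rw [← AlgHom.comp_apply, comp_aeval]
  refine congrArg (fun z => aeval z P) (funext fun v => ?_)
  cases v with
  | inl v =>
    simp only [sbb, Sum.elim_inl, map_sum, map_smul, smat_mm, scw, Md.scl, aeval_X, Bk.wg_inl, kp_one]
    exact sum_congr rfl fun μ _ => by split_ifs <;> simp [smul_eq_C_mul]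
  | inr a =>
    simp only [sbb, Sum.elim_inr, map_sum, map_smul, smat_mm, scw, Md.scl, aeval_X, Bk.wg_inr, kp_one]
    refine sum_congr rfl fun μ _ => ?_
    split_ifs
    · rw [Int.cast_one, one_smul, smul_eq_C_mul]; rfl
    · rw [Int.cast_zero, zero_smul, zero_smul]

theorem coeff_sbb (k : τ → ℤ) (P : MvPolynomial (VV C σ ⊕ B.N) ℝ) (m : _ →₀ ℕ) :
    coeff m (aeval (sbb B col W (mm col k)) P) =
      kp k (Finsupp.weight ((sp B col W).wg Prod.snd) m) *
        coeff m (aeval (sbb B col W (mm col 1)) P) := by rw [sbb_mm, coeff_scw]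

theorem sbb_bt (k : τ → ℤ) (v : VV C σ ⊕ B.N) : Bt (fun v' => ((sp B col W).wg Prod.snd v').mapDomain col)
    univ (B.wg Prod.snd v) (sbb B col W (mm col k) v) := by
  have : ∀ (v' : VV C τ ⊕ (sp B col W).N) (u : σ →₀ ℕ),
      Bt (fun v' => ((sp B col W).wg Prod.snd v').mapDomain col) univ u
        ((smat (mm col k) u ((sp B col W).wg Prod.snd v') : ℝ) • X v') := fun v' u => by
    rw [smat_mm]
    split_ifs with h
    · rw [smul_eq_C_mul, ← zero_add u]
      exact (Bt.C _ fun _ _ => rfl).mul (.X _ h.le fun _ _ => h ▸ rfl)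
    · rw [Int.cast_zero, zero_smul]; exact .zero
  cases v with
  | inl v => exact .sum _ fun μ _ => this (.inl (v.1, μ)) _
  | inr a => exact .sum _ fun x _ => this (.inr x) _

variable {B col W}

/-- the monomials after the substitution -/
theorem sbb_supp {k : τ → ℤ} {P : MvPolynomial (VV C σ ⊕ B.N) ℝ} {m' : _ →₀ ℕ}
    (h : m' ∈ (aeval (sbb B col W (mm col k)) P).support) :
    kp k (Finsupp.weight ((sp B col W).wg Prod.snd) m') ≠ 0 ∧ ∃ m ∈ P.support,
      (Finsupp.weight ((sp B col W).wg Prod.snd) m').mapDomain col =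
        Finsupp.weight (B.wg Prod.snd) m := by
  classical
  refine ⟨fun e => mem_support_iff.1 h (by rw [coeff_sbb, e, Int.cast_zero, zero_mul]), ?_⟩
  rw [P.as_sum, map_sum] at h
  obtain ⟨m, a, c⟩ := mem_biUnion.1 (support_sum h)
  have := ((Bt.of_hom (M := univ) (isWeightedHomogeneous_monomial (B.wg Prod.snd) m (coeff m P)
    rfl)).aeval' (fun v _ => sbb_bt B col W k v) m' c).2
  rw [weight_map] at this
  exact ⟨m, a, Finsupp.ext fun ℓ => this ℓ (mem_univ _)⟩

theorem sbb_vars {k : τ → ℤ} {P : MvPolynomial (VV C σ ⊕ B.N) ℝ} {v' : VV C τ}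
    (h : Sum.inl v' ∈ (aeval (sbb B col W (mm col k)) P).vars) :
    Sum.inl (v'.1, v'.2.mapDomain col) ∈ P.vars ∧ v'.2 ∈ W := by
  classical
  obtain ⟨u, hu, e⟩ := mem_vars_bind₁ _ _ h
  have sm : ∀ (r : ℝ) (x y : VV C τ ⊕ (sp B col W).N),
      y ∈ (r • X x : MvPolynomial _ ℝ).vars → y = x ∧ r ≠ 0 := fun r x y e => by
    by_cases z : r = 0
    · simp [z] at e
    · rw [smul_eq_C_mul, vars_C_mul _ z, vars_X, mem_singleton] at e
      exact ⟨e, z⟩
  cases u with
  | inl v =>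
    obtain ⟨μ, a, e⟩ := mem_biUnion.1 (vars_sum_subset _ _ e)
    obtain ⟨e1, e2⟩ := sm _ _ _ e
    obtain rfl := Sum.inl.inj e1
    rw [smat_mm] at e2
    have : μ.mapDomain col = v.2 := by_contra fun z => e2 (by rw [if_neg z, Int.cast_zero])
    exact ⟨this ▸ hu, a⟩
  | inr a =>
    obtain ⟨μ, -, e⟩ := mem_biUnion.1 (vars_sum_subset _ _ e)
    cases (sm _ _ _ e).1

/-- **cancellation** -/
theorem canc {k0 k1 : τ → ℤ} {c : ℝ} {P : MvPolynomial (VV C σ ⊕ B.N) ℝ} {m' : _ →₀ ℕ}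
    (h : m' ∈ (aeval (sbb B col W (mm col k0)) P -
      c • aeval (sbb B col W (mm col k1)) P).support) :
    (kp k0 (Finsupp.weight ((sp B col W).wg Prod.snd) m') : ℝ) ≠
      c * kp k1 (Finsupp.weight ((sp B col W).wg Prod.snd) m') ∧ ∃ m ∈ P.support,
      (Finsupp.weight ((sp B col W).wg Prod.snd) m').mapDomain col =
        Finsupp.weight (B.wg Prod.snd) m := by
  have := mem_support_iff.1 h
  rw [coeff_sub, coeff_smul, coeff_sbb _ _ _ k0, coeff_sbb _ _ _ k1, smul_eq_mul, ← mul_assoc,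
    ← sub_mul] at this
  exact ⟨sub_ne_zero.1 (left_ne_zero_of_mul this),
    (sbb_supp (mem_support_iff.2 (right_ne_zero_of_mul this))).2⟩

end Crest.Agent.N49.Pk.Cn

end
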