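import Crest.Agent.N49.Sw.Df5
import Crest.Agent.N49.Su.Df2
import Crest.Agent.N49.Sd.Sy0
import Crest.Agent.N49.Pk.Cn0

/-!
# Row 49 (helper40): packing the output of the substitution step into a state (FROZEN)
-/

set_option autoImplicit false
set_option linter.unusedSectionVars false

open Matrix MvPolynomial Finset

noncomputable section

namespace Crest.Agent.N49.Pk

open Po Tw Sd Sy Md Rm Mv Sw
open Cn (mm)
open Su (sbq Gq)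

variable {τ τ' L C : Type} [Fintype τ] [DecidableEq τ] [Fintype τ'] [DecidableEq τ'] [Fintype L]
  [DecidableEq L]

/-- the base with unit widths -/
abbrev b1 (B : Bs L) : Bs L := { B with la := fun _ => 1 }

/-- a word function on the universal variables -/
def zv (V : TS Unit) (U' : Finset (τ' →₀ ℕ)) (ξ : V.C → Finset τ' → ℝ) (v : VV V.C τ') : ℝ :=
  if v.2 ∈ U' ∧ v.2.degree = V.lev v.1 then ξ v.1 v.2.support else 0

/-- the diagonal brackets as pending families -/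
def dP (T : TS Unit) (Bt : Bk (VV T.C τ) τ) : Bk T.C Unit where
  N := Bt.N
  wd a := Finsupp.single () (Bt.wd a).degree
  rk := Bt.rk
  Θ a := dgl T Bt (Bt.Θ a)

/-- the part that is removed -/
def gr (Bt : Bk (VV C τ) τ) (col : τ' → τ) (U' : Finset (τ' →₀ ℕ)) {I D : Type} [Fintype I]
    [DecidableEq D] (dd : I → D) (E : I → Finset τ) (sg : τ' → ℤ) (f c0 : ℕ) (d : D)
    (Γ : MvPolynomial (VV C τ ⊕ Bt.N) ℝ) : MvPolynomial (VV C τ' ⊕ (sp Bt col U').N) ℝ :=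
  (c0 : ℝ) • ∑ j with dd j = d, (f : ℝ) • sbq Bt col U' (mm col sg) (cw Bt (E j) Γ)

/-- the two alphabets -/
structure Ge (s n : ℕ) (W : Finset (Finset τ)) (blk : τ → L) (x : τ) (W' : Finset (Finset τ'))
    (col : τ' → τ) (i : τ → τ') (m : L → ℕ) (k : τ' → ℕ) (c : ℕ) : Prop where
  al : Al s W blk x
  al' : Al s W' (blk ∘ col) (i x)
  ci : ∀ a, col (i a) = a
  m1 : ∀ ℓ, 1 ≤ m ℓ ∧ m ℓ ≤ n
  k1 : ∀ t, k t ≤ 2 ^ n
  c1 : 1 ≤ c ∧ c ≤ 2 ^ n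
  mu : ∀ a, m (blk a) * k (i a) = c
  cd : Fintype.card τ' ≤ n

/-- the pairs `(dd j, E j)` list the data and the words with the block set `U` -/
structure Gw (W : Finset (Finset τ)) (blk : τ → L) (x : τ) (U : Finset L) {I D : Type}
    (dd : I → D) (E : I → Finset τ) : Prop where
  x : blk x ∈ U
  mem : ∀ j, E j ∈ W ∧ (E j).image blk = U
  uq : ∀ d, ∀ A ∈ W, A.image blk = U → ∃! j, dd j = d ∧ E j = A

/-- the multipliers on these words -/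
structure Gj (i : τ → τ') (k : τ' → ℕ) (sg : τ' → ℤ) {I : Type} (E : I → Finset τ) (f c0 : ℕ) :
    Prop where
  sg : ∀ j, ∀ a ∈ E j, sg (i a) = 1
  c0 : ∀ j, ∏ a ∈ E j, k (i a) = c0 * f

/-- the conclusion: a new frame with the state `p'` -/
def Out (s M n e K' c : ℕ) (B : Bs L) (W : Finset (Finset τ)) (blk : τ → L) (x : τ) {D : Type}
    (F : D → Fm L (B.SC W)) (H : Set (B.SC W → ℤ)) (p' : Finset L → Prop) : Prop :=
  ∃ (f : Fr B.T τ L) (H' : Set (f.SC W → ℤ)), f.Ok s (n ^ e) ∧ f.M = tM M ∧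
    f.θ.St B.st f.st ∧ f.Fw c (n ^ e) ∧ Fintype.card f.T.C ≤ 2 ^ n ^ e ∧
    f.Rg 1 (n ^ K') (1 / 2 ^ n ^ K') (1 / 2 ^ n ^ K') ∧ 1 / 2 ^ n ^ e ≤ (f.SY W blk).pr H' ∧
    Ov (ka B W blk f) H' H ∧
    AS s f.toBs W blk x (fun d p => F d (ka B W blk f p)) H' (n ^ e) p'

/-- the old state -/
structure Old0 (B : Bs L) (W : Finset (Finset τ)) (blk : τ → L) (x : τ) {D : Type}
    (F : D → Fm L (B.SC W)) (H : Set (B.SC W → ℤ)) (n : ℕ) (p : Finset L → Prop)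
    (Bt : Bk (VV B.T.C τ) τ) (Γ : D → MvPolynomial (VV B.T.C τ ⊕ Bt.N) ℝ) : Prop where
  dat : ∀ d, (B.SY W blk).Dat univ {blk x} (F d)
  tyd : Tyd blk x Bt
  card : Fintype.card Bt.N ≤ n
  tyf : ∀ d, Tyf blk x Bt (fun w => p (w.mapDomain blk).support) (Γ d)
  rel : ∀ y ∈ H, ∀ d, (B.SY W blk).Rel univ {blk x} y 1 (2 ^ n) fun z =>
    F d z - Bt.ev (uv B W z) (Γ d)

/-- the geometry of a step -/
structure Gg (s : ℕ) (W : Finset (Finset τ)) (blk : τ → L) (U : Finset L) {I D κ : Type}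
    [Fintype κ] [DecidableEq κ] {l : ℕ} (q : Gq τ I κ l) (dd : I → D) : Prop where
  al : Al s W blk q.x
  ok : q.Ok s
  ls : l ≤ s
  hW : q.W = W.image ind
  mc : q.mc = (l + 1).factorial
  kp : ∀ a, (∃ k, q.kp k = a) ↔ blk a ∈ U.erase (blk q.x)
  gw : Gw W blk q.x U dd q.E

/-- **PACK** -/
def PK (s M : ℕ) : Prop := ∃ e : ℕ, ∀ K' : ℕ, ∃ K : ℕ, ∀ (τ L D I κ : Type) [Fintype τ]
  [DecidableEq τ] [Fintype L] [DecidableEq L] [Fintype D] [Fintype I] [DecidableEq I] [Fintype κ]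
  [DecidableEq κ] (l n : ℕ) (B : Bs L) (W : Finset (Finset τ)) (blk : τ → L) (q : Gq τ I κ l)
  (H : Set (B.SC W → ℤ)) (F : D → Fm L (B.SC W)) (Bt : Bk (VV B.T.C τ) τ)
  (Γ : D → MvPolynomial (VV B.T.C τ ⊕ Bt.N) ℝ) (p p' : Finset L → Prop) (U : Finset L)
  (dd : I → D) (w κ0 b R : ℝ) (K0 : Kn τ) (H0 : Set (B.T.Cw (MR (fun _ => ()) q.W K0) → ℤ))
  (κ' : (τ ⊕ κ × Bool →₀ ℕ) → ℝ) (o : (sp Bt q.cl (q.W' s)).N → ℝ), Sb B W blk s n → B.M = M →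
  Gg s W blk U q dd → Rmv p p' U → q.mc ≤ n → Fintype.card D ≤ n → Fintype.card I ≤ n →
  Fintype.card κ ≤ n → 1 ≤ w → 1 / 2 ^ n ≤ b → b ≤ κ0 → (∀ μ, b ≤ κ' μ ∧ κ' μ ≤ 1) → R ≤ 2 ^ n →
  B.Rg 1 (n ^ K) (1 / 2 ^ n ^ K) (1 / 2 ^ n ^ K) → Old0 B W blk q.x F H n p Bt Γ →
  (∀ y ∈ H0, (fun v : B.SC W => ex B.T _ id y (v.1.1, ind v.1.2)) ∈ H) →
  1 / 2 ^ n ≤ (B.T.sh (MR (fun _ => ()) (q.W' s) (dk κ'))).P {y | ∃ k Y, q.Oq s B.T Bt
    (fun j => cw Bt (q.E j) (Γ (dd j))) w κ0 b R K0 H0 _ o y k Y} →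
  Out s M n e K' q.mc B W blk q.x F H p'

/-! ### leaves -/

/-- leaf: **the frame part** (absorb, freeze, pull back, restrict, split, merge) -/
def PK2 (s M : ℕ) : Prop := ∃ e : ℕ, ∀ K' : ℕ, ∃ K : ℕ, ∀ (τ τ' L D : Type) [Fintype τ]
  [DecidableEq τ] [Fintype τ'] [DecidableEq τ'] [Fintype L] [DecidableEq L] [Fintype D]
  (B : Bs L) (W : Finset (Finset τ)) (blk : τ → L) (x : τ) (W' : Finset (Finset τ'))
  (col : τ' → τ) (i : τ → τ') (hi : Function.Injective i) (m : L → ℕ) (k : τ' → ℕ) (c n : ℕ)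
  (U' : Finset (τ' →₀ ℕ)) (κ : (τ' →₀ ℕ) → ℝ) (A : Set (B.T.Cw (Fz.DR U' κ) → ℤ))
  (H : Set (B.SC W → ℤ)) (F : D → Fm L (B.SC W)) (Bt : Bk (VV B.T.C τ) τ)
  (Γ : D → MvPolynomial (VV B.T.C τ ⊕ Bt.N) ℝ) (p p' : Finset L → Prop)
  (B1 : Bk (VV B.T.C τ') τ') (o : B1.N → ℝ) (Γ1 G1 : D → MvPolynomial (VV B.T.C τ' ⊕ B1.N) ℝ)
  (P : Bk B.T.C Unit) (Pi : D → Finset τ' → MvPolynomial (Bk.ext B.T P).C ℝ), Sb B W blk s n →
  B.M = M → Ge s n W blk x W' col i m k c → W'.image ind = U' → Fintype.card D ≤ n →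
  (∀ ω ∈ U', 1 / 2 ^ n ≤ κ ω ∧ κ ω ≤ 1) → B.Rg 1 (n ^ K) (1 / 2 ^ n ^ K) (1 / 2 ^ n ^ K) →
  1 / 2 ^ n ≤ (B.T.sh _).P A → Old0 B W blk x F H n p Bt Γ → Tyd (blk ∘ col) (i x) B1 →
  Fintype.card B1.N ≤ n → (∀ S S', S' ⊆ S → p' S → p' S') →
  (∀ d, Tyf (blk ∘ col) (i x) B1
    (fun w => p' ((w.comapDomain i hi.injOn).mapDomain blk).support) (Γ1 d)) →
  Pn B P n s → (∀ d U, (Pi d U).IsWeightedHomogeneous (Bk.ext B.T P).lev #U) →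
  (∀ y ∈ A, ∃ y0 ∈ H, (∀ v : B.SC W, (y0 v : ℝ) = sbv (mm col fun t => k t) U'
      (ex B.T _ id (zc y)) (v.1.1, ind v.1.2)) ∧
    ∃ (kk : B1.N → ℤ) (Y : (Bk.ext B.T P).C → Finset τ' → ℤ),
    (∀ a, |eval (Sum.elim (ex B.T _ id (zc y)) fun a => (kk a : ℝ)) (B1.Θ a) - o a - kk a| ≤ 1) ∧
    Pw (b1 B) W' (blk ∘ col) (blk x) P n (fun v => ex B.T _ id y (v.1.1, ind v.1.2)) Y ∧ ∀ d,
      (Mv.Rx (Bk.ext B.T P) W' (blk ∘ col) (fun _ => 1) (blk x) Y 1 (2 ^ n) fun ξ =>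
        eval (Sum.elim (uv (b1 B) W' (Mv.pt (b1 B) W' (blk x) P ξ)) fun a => (kk a : ℝ)) (G1 d) -
          ∑ U ∈ W' with blk x ∈ U.image (blk ∘ col), Sy.sy (Bk.ext B.T P).lev (Pi d U) ξ U) ∧
      ∀ z, eval (Sum.elim (sbv (mm col fun t => k t) U' z)
          fun a => (Bt.om (uv B W (TT.cf y0)) a : ℝ)) (Γ d) =
        eval (Sum.elim z fun a => (kk a : ℝ)) (Γ1 d) + eval (Sum.elim z fun a => (kk a : ℝ)) (G1 d)) →
  Out s M n e K' c B W blk x F H p'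

/-- leaf: the geometry -/
def GEO : Prop := ∀ (τ L D I κ : Type) [Fintype τ] [DecidableEq τ] [Fintype L] [DecidableEq L]
  [Fintype I] [DecidableEq I] [Fintype κ] [DecidableEq κ] (l s n : ℕ) (W : Finset (Finset τ))
  (blk : τ → L) (U : Finset L) (q : Gq τ I κ l) (dd : I → D), Gg s W blk U q dd → q.mc ≤ n →
  Fintype.card τ ≤ n → Fintype.card κ ≤ n →
  ∃ (W' : Finset (Finset (τ ⊕ κ × Bool))) (i : τ → τ ⊕ κ × Bool) (m : L → ℕ)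
    (k : τ ⊕ κ × Bool → ℕ) (sg : τ ⊕ κ × Bool → ℤ) (c0 : ℕ),
    Ge s (3 * n) W blk q.x W' q.cl i m k q.mc ∧ W'.image ind = q.W' s ∧ i q.x = .inl q.x ∧
    (q.r0 fun _ => false) = (mm q.cl fun t => k t) ∧ q.r2 = mm q.cl sg ∧
    Gj i k sg q.E (l + 1).factorial c0 ∧ c0 ≤ 2 ^ (n * s) ∧ ∀ j, q.w (q.ec j) = wE (q.E j)

/-- leaf: **cancellation** -/
def CANC : Prop := ∀ (τ τ' L C I D : Type) [Fintype τ] [DecidableEq τ] [Fintype τ']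
  [DecidableEq τ'] [Fintype L] [DecidableEq L] [Fintype I] [DecidableEq D] (s n : ℕ)
  (W : Finset (Finset τ)) (blk : τ → L) (x : τ) (W' : Finset (Finset τ')) (col : τ' → τ)
  (i : τ → τ') (hi : Function.Injective i) (m : L → ℕ) (k : τ' → ℕ) (c c0 f : ℕ)
  (U' : Finset (τ' →₀ ℕ)) (Bt : Bk (VV C τ) τ) (Γ : MvPolynomial (VV C τ ⊕ Bt.N) ℝ)
  (p p' : Finset L → Prop) (U : Finset L) (dd : I → D) (E : I → Finset τ) (sg : τ' → ℤ) (d : D),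
  Ge s n W blk x W' col i m k c → Gw W blk x U dd E → Gj i k sg E f c0 → Rmv p p' U →
  Tyd blk x Bt → Tyf blk x Bt (fun w => p (w.mapDomain blk).support) Γ →
  Tyf (blk ∘ col) (i x) (sp Bt col U')
    (fun w => p' ((w.comapDomain i hi.injOn).mapDomain blk).support)
    (sbq Bt col U' (mm col fun t => k t) Γ - gr Bt col U' dd E sg f c0 d Γ)

/-- leaf: the brackets on the big alphabet; the diagonal brackets -/
def SPT : Prop :=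
  (∀ (τ τ' L C : Type) [Fintype τ] [DecidableEq τ] [Fintype τ'] [DecidableEq τ'] (blk : τ → L)
    (x : τ) (x' : τ') (col : τ' → τ) (U' : Finset (τ' →₀ ℕ)) (Bt : Bk (VV C τ) τ), col x' = x →
    Dn U' → Tyd blk x Bt → Tyd (blk ∘ col) x' (sp Bt col U') ∧
      Fintype.card (sp Bt col U').N ≤ Fintype.card Bt.N * #U') ∧
  ∀ (τ : Type) [Fintype τ] [DecidableEq τ] (T : TS Unit) (Bt : Bk (VV T.C τ) τ), T.Ok → Bo Bt →
    (dP T Bt).Ok T.deg ∧ ∀ (E : Finset τ) (Γ : MvPolynomial (VV T.C τ ⊕ Bt.N) ℝ),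
      (dgl T Bt (cw Bt E Γ)).IsWeightedHomogeneous (Bk.ext T (dP T Bt)).lev #E

/-- leaf: symbols of word functions; symbols along a monomial substitution -/
def SVS : Prop :=
  (∀ (τ C : Type) [Fintype τ] [DecidableEq τ] (lev : C → ℕ) (Q : MvPolynomial C ℝ)
    (z : VV C τ → ℝ) (A : Finset τ), (∀ c μ, z (c, μ) ≠ 0 → μ.degree = lev c) →
    sv Q (ind A) z = Sy.sy lev Q (fun c A' => z (c, ind A')) A) ∧
  ∀ (τ τ' L : Type) [Fintype τ] [DecidableEq τ] [Fintype τ'] [DecidableEq τ']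
    (V : TS Unit) (blk : τ → L) (W' : Finset (Finset τ')) (col : τ' → τ) (sg : τ' → ℤ)
    (E : Finset τ) (Q : MvPolynomial V.C ℝ) (ξ : V.C → Finset τ' → ℝ),
    (∀ A, A ∈ W' ↔ Set.InjOn (blk ∘ col) A) → Set.InjOn blk E →
    sv Q (wE E) (sbv (mm col sg) (W'.image ind) (zv V (W'.image ind) ξ)) =
      ∑ A ∈ W' with A.image col = E, (∏ t ∈ A, (sg t : ℝ)) * Sy.sy V.lev Q ξ A

/-- leaf: from the relation on a monomial ring to the relation on word functions -/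
def RXC : Prop := ∀ (τ' L : Type) [Fintype τ'] [DecidableEq τ'] [Fintype L] [DecidableEq L]
  (V : TS Unit) (v : V.C → ℝ) (W' : Finset (Finset τ')) (U' : Finset (τ' →₀ ℕ)) (blk' : τ' → L)
  (x' : τ') (κ : (τ' →₀ ℕ) → ℝ) (n : ℕ) (R : ℝ) (Y : VV V.C τ' → ℤ) (G : (VV V.C τ' → ℝ) → ℝ),
  V.Ok → V.K = diagonal v → (∀ c, 1 ≤ v c) → Dw W' → W'.image ind = U' →
  (∀ a, blk' a = blk' x' → a = x') → (∀ ω, 1 / 2 ^ n ≤ κ ω) → Fintype.card V.C ≤ 2 ^ n →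
  #W' ≤ 2 ^ n → R ≤ 2 ^ n →
  Sw.Rx (V.sh (MR (fun _ => ()) U' (dk κ))) (fun p => p.1.2.1 x' ≠ 0)
    (fun p => (Y (p.1.1, p.1.2.1) : ℝ)) R (fun ξ => G (ex V _ id ξ)) →
  Mv.Rx V W' blk' (fun _ => 1) (blk' x') (fun c A => Y (c, ind A)) 1 (2 ^ (3 * n)) fun ξ =>
    G (zv V U' ξ)

/-- leaf: relations add up -/
def RXS : Prop := ∀ (τ L J : Type) [Fintype τ] [DecidableEq τ] [Fintype L] [DecidableEq L]
  (V : TS Unit) (W : Finset (Finset τ)) (blk : τ → L) (la : L → ℝ) (x : L)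
  (Y : V.C → Finset τ → ℤ) (b b' : ℝ) (c : ℕ) (S : Finset J) (F : J → (V.C → Finset τ → ℝ) → ℝ)
  (G : (V.C → Finset τ → ℝ) → ℝ), (∀ j ∈ S, Mv.Rx V W blk la x Y 1 b (F j)) →
  (∀ ξ, G ξ = c * ∑ j ∈ S, F j ξ) → c * #S * b ≤ b' → Mv.Rx V W blk la x Y 1 b' G

/-- leaf: the universal variables of configurations -/
def UVX : Prop := ∀ (τ L : Type) [Fintype τ] [DecidableEq τ] [Fintype L] [DecidableEq L]
  (B : Bs L) (W : Finset (Finset τ)) (U : Finset (τ →₀ ℕ)) (s h : ℕ), B.Ok s h → W.image ind = U →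
  (∀ (K : Kn τ) (y : B.T.Cw (MR (fun _ => ()) U K) → ℤ),
    uv B W (TT.cf fun v : B.SC W => ex B.T _ id y (v.1.1, ind v.1.2)) = ex B.T _ id (zc y) ∧
      ∀ v, ((ex B.T _ id y v : ℤ) : ℝ) = ex B.T _ id (zc y) v) ∧
  ∀ (x : L) (P : Bk B.T.C Unit) (ξ : (Bk.ext B.T P).C → Finset τ → ℝ),
    uv B W (Mv.pt B W x P ξ) = fun v => zv (Bk.ext B.T P) U ξ (.inl v.1, v.2)

end Crest.Agent.N49.Pk

end
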