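import Crest.Agent.N49.Pk.Geo
import Crest.Agent.N49.Pk.Defs
import Crest.Agent.N49.Su.Ewq

/-!
# Row 49 (helper72): the leaf `GEO`
-/

set_option autoImplicit false

open Finset

noncomputable section

namespace Crest.Agent.N49.Pk

open Tw Sd Sw Sy Md Su

theorem geo : GEO := by
  intro τ L D I κ _ _ _ _ _ _ _ _ l s n W blk U q dd g mn cτ cκ
  have m1 : 1 ≤ q.mc := g.mc ▸ Nat.factorial_pos _
  have a1 := Gy.al1 g.ok g.al
  have hb : ∀ a k, blk a = blk (q.kp k) → ∃ k', q.kp k' = a := fun a k e =>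
    (g.kp a).2 (e ▸ (g.kp _).1 ⟨k, rfl⟩)
  have c := Gy.ct (n := 3 * n) g.al a1 m1 (by omega) (by omega)
  have p : n ≤ 2 ^ n := Nat.lt_two_pow_self.le
  refine ⟨Gy.Wa (blk ∘ q.cl), Gy.ii q, Gy.mb q blk, Gy.kk q,
    Sum.elim (fun a => if a = q.x then 1 else 0) fun h => if h.2 then -1 else 1, q.mc ^ (l - 1),
    ⟨g.al, (Gy.ii_x g.ok).symm ▸ a1, Gy.cl_ii q, Gy.mb_le m1 (by omega), c.k1, c.c1, Gy.mb_kk hb,
      c.cd⟩, (Gy.W'_eq g.al g.hW a1).symm, Gy.ii_x g.ok, Gy.r0_eq q, ?_, ⟨fun j a ha => ?_,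
      fun j => ?_⟩, ?_, fun j => (Su.ewq τ I κ l s q j g.ok).1.symm⟩
  · funext t
    rcases t with a | ⟨k, _ | _⟩
    · by_cases h : a = q.x <;> simp [Cn.mm, Gq.r2, Gq.cl, h]
    · simp [Cn.mm, Gq.r2, Gq.cl]
    · simp [Cn.mm, Gq.r2, Gq.cl, Pi.single_neg]
  · by_cases h : a = q.x
    · rw [h, Gy.ii_x g.ok]; simp
    · obtain ⟨i, rfl⟩ := (Su.ewq τ I κ l s q j g.ok).2.2.2.2.2.2.1 a ha h
      rw [Gy.ii_kp g.ok]; simp
  · obtain ⟨-, e1, -, e2, -, -, e3, -⟩ := Su.ewq τ I κ l s q j g.ok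
    rw [← mul_prod_erase _ _ e2, Gy.ii_x g.ok, prod_congr rfl (g := fun _ => q.mc) fun a ha => by
      obtain ⟨i, rfl⟩ := e3 a (mem_erase.1 ha).2 (mem_erase.1 ha).1
      rw [Gy.ii_kp g.ok]; simp [Gy.kk], prod_const, card_erase_of_mem e2, e1, ← g.mc]
    rcases l with _ | l
    · simp [Gy.kk, g.mc]
    · simp [Gy.kk, pow_succ]
  · rw [pow_mul]
    exact (Nat.pow_le_pow_left (mn.trans p) _).trans
      (Nat.pow_le_pow_right (Nat.two_pow_pos n) (by have := g.ls; omega))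

end Crest.Agent.N49.Pk

end
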