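import Crest.Agent.N49.Su.Df2
import Crest.Agent.N49.Sw.Df4
import Crest.Agent.N49.Sw.Desc
import Crest.Agent.N49.Sw.Cola

/-!
# Row 49 (helper35): from the diagonal tower to the tower with pending families
-/

set_option autoImplicit false
set_option linter.unusedSectionVars false

open Matrix MvPolynomial Finset

noncomputable section

namespace Crest.Agent.N49.Pk.Br

open Po Tw Sd Sw Sy Md

section dg
variable {σ : Type} (T : TS Unit) (B : Bk (VV T.C σ) σ)

/-- the diagonal brackets as pending families -/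
def dg : Bk T.C Unit where
  N := B.N
  wd a := Finsupp.single () (B.wd a).degree
  rk := B.rk
  Θ a := dgl T B (B.Θ a)

variable {T B}

theorem dgl_hom {P : MvPolynomial (VV T.C σ ⊕ B.N) ℝ} {w : σ →₀ ℕ}
    (h : P.IsWeightedHomogeneous (B.wg Prod.snd) w) :
    (dgl T B P).IsWeightedHomogeneous ((dg T B).wg T.deg) (Finsupp.single () w.degree) :=
  Ca.hom_ae ((Finsupp.singleAddHom ()).comp Finsupp.degree) h fun v => by
    rcases v with v | a
    · rw [Sum.elim_inl]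
      split_ifs with e
      · rw [smul_eq_C_mul, ← zero_add (AddMonoidHom.comp _ _ _)]
        refine (isWeightedHomogeneous_C _ _).mul ?_
        have : T.deg v.1 = Finsupp.single () v.2.degree :=
          Tw.unit_ext (e.symm.trans (Finsupp.degree_single _ _).symm)
        exact Ca.hom_X this
      · exact isWeightedHomogeneous_zero _ _ _
    · exact isWeightedHomogeneous_X ℝ _ (Sum.inr a)

theorem dgl_lev {P : MvPolynomial (VV T.C σ ⊕ B.N) ℝ} {w : σ →₀ ℕ}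
    (h : P.IsWeightedHomogeneous (B.wg Prod.snd) w) :
    (dgl T B P).IsWeightedHomogeneous (Bk.ext T (dg T B)).lev w.degree := fun m hm => by
  have := congrArg Finsupp.degree (dgl_hom h hm)
  rw [Finsupp.degree_single] at this
  refine Eq.trans ?_ this
  change (∑ v ∈ m.support, m v • ((Bk.ext T (dg T B)).deg v).degree) =
    Finsupp.degree (∑ v ∈ m.support, m v • (Bk.ext T (dg T B)).deg v)
  rw [map_sum]
  exact sum_congr rfl fun v _ => (map_nsmul Finsupp.degree _ _).symm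

theorem dg_ok [DecidableEq σ] (h : T.Ok) (hB : Bo B) : (dg T B).Ok T.deg :=
  ⟨fun a e => hB.ok.ne a ((Finsupp.degree_eq_zero_iff _).1 (Finsupp.single_eq_zero.1 e)),
    fun a => dgl_hom (hB.ok.hom a), fun _ c _ => h.ne c,
    fun a a' k => hB.ok.tri a a' (De.dgl_vars k)⟩

theorem dg_deg (a : B.N) : ((dg T B).wd a).degree = (B.wd a).degree := Finsupp.degree_single _ _
end dg

section sv
variable {C σ τ : Type} [Fintype τ] [DecidableEq τ]

/-- a word function on the universal variables -/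
def vw (lev : C → ℕ) (U : Finset (τ →₀ ℕ)) (ξ : C → Finset τ → ℝ) : VV C τ → ℝ := fun v =>
  if v.2 ∈ U ∧ v.2.degree = lev v.1 then ξ v.1 v.2.support else 0

theorem deg_ind (A : Finset τ) : (ind A).degree = #A := by
  rw [Finsupp.degree_apply, card_eq_sum_ones]
  exact sum_congr rfl fun a k => if_pos k

theorem eq_ind {ν : τ →₀ ℕ} {A : Finset τ} (h : ν ≤ ind A) : ν = ind ν.support ∧ ν.support ⊆ A :=
  ⟨Finsupp.ext fun a => by
    have := h a
    rw [ind_apply] at this ⊢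
    simp only [Finsupp.mem_support_iff]
    split_ifs at this ⊢ <;> omega, Finsupp.support_mono h⟩

theorem vw_ind (lev : C → ℕ) {W : Finset (Finset τ)} (ξ : C → Finset τ → ℝ) (c : C)
    {A : Finset τ} (h : A ∈ W) : vw lev (W.image ind) ξ (c, ind A) =
      if #A = lev c then ξ c A else 0 :=
  if_congr (by rw [deg_ind]; exact and_iff_right (mem_image_of_mem _ h)) rfl rfl

theorem sv_sy' (lev : C → ℕ) (P : MvPolynomial C ℝ) (ξ : C → Finset τ → ℝ) (A : Finset τ)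
    {z : VV C τ → ℝ} (h : ∀ c, ∀ D ⊆ A, z (c, ind D) = if #D = lev c then ξ c D else 0) :
    sv P (ind A) z = Sy.sy lev P ξ A :=
  Dg.sv_eq P (Y := Yp lev ξ) fun F ν k => by
    obtain ⟨a, b⟩ := eq_ind k
    rw [a, h F _ b, ← sy_X, Sy.sy, aeval_X]

theorem sv_sy (lev : C → ℕ) {W : Finset (Finset τ)} (hW : Dw W) (P : MvPolynomial C ℝ)
    (ξ : C → Finset τ → ℝ) {A : Finset τ} (h : A ∈ W) :
    sv P (ind A) (vw lev (W.image ind) ξ) = Sy.sy lev P ξ A :=
  sv_sy' lev P ξ A fun c _ k => vw_ind lev ξ c (hW _ h _ k)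

omit [Fintype τ] in
theorem cf_lsub [Fintype σ] (φ : τ → σ → ℤ) (ν : σ →₀ ℕ) (μ : τ →₀ ℕ) (c : ℝ) :
    coeff ν (lsub φ (monomial μ c)) = smat φ ν μ * c := by
  have : lsub φ (monomial μ (1 : ℝ)) =
      MvPolynomial.map (Int.castRingHom ℝ) (lsub φ (monomial μ (1 : ℤ))) := by
    simp [lsub, aeval_monomial, Finsupp.prod, map_prod, -aeval_eq_bind₁]
  rw [show monomial μ c = c • monomial μ (1 : ℝ) by simp [smul_monomial], map_smul, coeff_smul,
    this, coeff_map, smul_eq_mul, mul_comm]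
  rfl

omit [Fintype τ] in
/-- symbols under a substitution -/
theorem sv_sbv [Fintype σ] [DecidableEq σ] (φ : τ → σ → ℤ) {U : Finset (τ →₀ ℕ)} (hU : Dn U)
    (P : MvPolynomial C ℝ) {ν : σ →₀ ℕ} (h : ∀ μ, smat φ ν μ ≠ 0 → μ ∈ U) (z : VV C τ → ℝ) :
    sv P ν (sbv φ U z) = ∑ μ ∈ U, smat φ ν μ * sv P μ z := by
  let Y : C → MvPolynomial τ ℝ := fun F => ∑ μ ∈ U, monomial μ (z (F, μ))
  rw [Dg.sv_eq P (Y := fun F => lsub φ (Y F)) fun F ν' _ => by
    simp only [Y, map_sum, coeff_sum, cf_lsub, sbv], ← comp_aeval_apply]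
  have e : ∀ μ ∈ U, sv P μ z = coeff μ (aeval Y P) := fun μ k => Dg.sv_eq P fun F ν' k' => by
    simp [Y, coeff_sum, coeff_monomial, hU μ k ν' k']
  rw [sum_congr rfl fun μ k => by rw [e μ k]]
  conv_lhs => rw [(aeval Y P).as_sum]
  simp only [map_sum, coeff_sum, cf_lsub]
  refine sum_subset_zero_on_sdiff (s₁ := (aeval Y P).support.filter (· ∈ U)) (filter_subset _ _)
    (fun μ k => ?_) (fun _ _ => rfl) |>.symm.trans
    (sum_subset_zero_on_sdiff (fun μ k => (mem_filter.1 k).2) (fun μ k => ?_) fun _ _ => rfl)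
  · have : smat φ ν μ = 0 := by_contra fun n =>
      (mem_sdiff.1 k).2 (mem_filter.2 ⟨(mem_sdiff.1 k).1, h μ n⟩)
    rw [this, Int.cast_zero, zero_mul]
  · have : coeff μ (aeval Y P) = 0 := by_contra fun n =>
      (mem_sdiff.1 k).2 (mem_filter.2 ⟨mem_support_iff.2 n, (mem_sdiff.1 k).1⟩)
    rw [this, mul_zero]
end sv

section rx
variable {τ L : Type} [Fintype τ] [DecidableEq τ] [Fintype L] [DecidableEq L]

theorem ex_vw {V : TS Unit} (hV : ∀ c, V.deg c ≠ 0) (U : Finset (τ →₀ ℕ)) (K : Kn τ)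
    (ξ : V.C → Finset τ → ℝ) :
    ex V (MR (fun _ => ()) U K) id (fun p => ξ p.1.1 p.1.2.1.support) = vw V.lev U ξ := by
  funext ⟨c, μ⟩
  have d : ∀ ν : τ →₀ ℕ, ν.mapDomain (fun _ => ()) = V.deg c ↔ ν.degree = V.lev c := fun ν =>
    ⟨fun e => by rw [TS.lev, ← e, degree_col], fun e => Tw.unit_ext ((degree_col _ ν).trans e)⟩
  unfold vw
  split_ifs with h
  · have n : μ ≠ 0 := fun e => hV c ((Finsupp.degree_eq_zero_iff _).1 (by
      have := h.2; rw [e, map_zero] at this; exact this.symm))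
    exact De.ex_one (U := V) (f := id) _ ⟨(c, ⟨μ, mem_erase.2 ⟨n, h.1⟩⟩), (d μ).2 h.2⟩ fun _ e => e
  · by_contra n
    obtain ⟨p, a, b⟩ := De.ex_ne n
    obtain ⟨⟨c', μ'⟩, e⟩ := p
    obtain rfl : c' = c := a
    obtain rfl : μ'.1 = μ := b
    exact h ⟨mem_of_mem_erase μ'.2, (d _).1 e⟩

theorem qf_le {D : Type} [Fintype D] [DecidableEq D] {K : Matrix D D ℝ} {b t : ℝ} (b0 : 0 < b)
    (t0 : 0 ≤ t) (h0 : ∀ c c', c ≠ c' → K c c' = 0) (h1 : ∀ c, b ≤ K c c) {u : D → ℝ}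
    (hu : ∀ c, |u c| ≤ t) : √(qf K⁻¹ u) ≤ t * √(Fintype.card D / b) := by
  have e : K = diagonal fun c => K c c := Matrix.ext fun c c' => by
    by_cases k : c = c'
    · subst k; simp
    · rw [diagonal_apply_ne _ k, h0 c c' k]
  have p : ∀ c, 0 < K c c := fun c => b0.trans_le (h1 c)
  have iv : K⁻¹ = diagonal fun c => (K c c)⁻¹ := inv_eq_left_inv (by
    conv_lhs => arg 2; rw [e]
    rw [diagonal_mul_diagonal, ← diagonal_one]
    exact congrArg _ (funext fun a => inv_mul_cancel₀ (p a).ne'))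
  rw [← Real.sqrt_sq t0, ← Real.sqrt_mul (sq_nonneg _), iv, qf, dotProduct]
  refine Real.sqrt_le_sqrt ((sum_le_card_nsmul _ _ (t ^ 2 / b) fun c _ => ?_).trans_eq ?_)
  · rw [mulVec_diagonal, mul_left_comm, ← sq, mul_comm, ← div_eq_mul_inv]
    exact div_le_div₀ (sq_nonneg _) (sq_le_sq' (abs_le.1 (hu c)).1 (abs_le.1 (hu c)).2) b0 (h1 c)
  · rw [card_univ, nsmul_eq_mul]; ring

/-- **relations on monomial rings are relations of word functions** -/
theorem brx0 {V : TS Unit} (hV : V.Ok) {W : Finset (Finset τ)} (hW : Dw W) {blk : τ → L} {x : τ}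
    (one : ∀ a, blk a = blk x → a = x) {κ : (τ →₀ ℕ) → ℝ} {b R : ℝ} (b0 : 0 < b) (R0 : 0 ≤ R)
    (h0 : ∀ c c', c ≠ c' → V.K c c' = 0) (h1 : ∀ c, 1 ≤ V.K c c) (hκ : ∀ μ, b ≤ κ μ)
    (K : Matrix V.C V.C ℝ) {Y : VV V.C τ → ℤ} {G : (VV V.C τ → ℝ) → ℝ}
    (h : Sw.Rx (V.sh (MR (fun _ => ()) (W.image ind) (dk κ))) (fun p => p.1.2.1 x ≠ 0)
      (fun p => (Y (p.1.1, p.1.2.1) : ℝ)) R fun ξ => G (ex _ _ id ξ)) :
    Mv.Rx (V.setK K) W blk (fun _ => 1) (blk x) (fun c A => Y (c, ind A)) 1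
      (R * √(Fintype.card V.C * #W / b)) fun ξ => G (vw V.lev (W.image ind) ξ) := by
  obtain ⟨I, i0, hI⟩ := h
  have wd : ∀ p : V.Cw (MR (fun _ => ()) (W.image ind) (dk κ)), p.1.2.1.support ∈ W ∧
      ind p.1.2.1.support = p.1.2.1 ∧ #p.1.2.1.support = V.lev p.1.1 ∧
      (blk x ∈ p.1.2.1.support.image blk ↔ p.1.2.1 x ≠ 0) := fun p => by
    obtain ⟨A, a, e⟩ := mem_image.1 (mem_of_mem_erase p.1.2.2)
    have s : p.1.2.1.support = A := by rw [← e]; rfl
    refine ⟨s ▸ a, s ▸ e, ?_, fun k => ?_, fun k => mem_image_of_mem _ (Finsupp.mem_support_iff.2 k)⟩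
    · rw [s, ← deg_ind, e, TS.lev, ← p.2]; exact (degree_col _ _).symm
    · obtain ⟨t, k1, k2⟩ := mem_image.1 k
      exact Finsupp.mem_support_iff.1 (one t k2 ▸ k1)
  refine ⟨fun ξ => ∑ p, I p * ξ p.1.1 p.1.2.1.support, fun a b ξ1 ξ2 ξ _ _ _ e => ?_,
    fun ξ _ => ⟨∑ p, I p * ξ p.1.1 p.1.2.1.support, by simp [Mv.wr]⟩, fun ξ t f t0 e => ?_⟩
  · simp only [mul_sum, ← sum_add_distrib]
    refine sum_congr rfl fun p _ => ?_
    by_cases k : p.1.2.1 x = 0
    · rw [i0 p (not_not.2 k)]; simp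
    · rw [e _ _ (wd p).1 ((wd p).2.2.2.2 k) (wd p).2.2.1]; ring
  · have k := hI (fun p => ξ p.1.1 p.1.2.1.support) fun p k =>
      (f _ _ (wd p).1 (fun z => k ((wd p).2.2.2.1 z)) (wd p).2.2.1).trans
        (congrArg (fun μ => (Y (p.1.1, μ) : ℝ)) (wd p).2.1)
    have ev := ex_vw hV.ne (W.image ind) (dk κ) ξ
    replace k := (congrArg (fun z => |G z - _|) ev.symm).trans_le k
    rw [Nat.cast_one, div_one, mul_left_comm]
    refine k.trans (mul_le_mul_of_nonneg_left ((qf_le b0 t0 (fun c c' n => ?_) (fun c => ?_)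
      fun c => ?_).trans (mul_le_mul_of_nonneg_left (Real.sqrt_le_sqrt
        (div_le_div_of_nonneg_right ?_ b0.le)) t0)) R0)
    · change V.K c.1.1.1 c'.1.1.1 * dk κ c.1.1.2.1 c'.1.1.2.1 = 0
      by_cases z : c.1.1.1 = c'.1.1.1
      · rw [dk, if_neg fun z' => n (Subtype.ext (Subtype.ext (Prod.ext z (Subtype.ext z')))),
          mul_zero]
      · rw [h0 _ _ z, zero_mul]
    · change b ≤ V.K c.1.1.1 c.1.1.1 * dk κ c.1.1.2.1 c.1.1.2.1
      rw [dk, if_pos rfl]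
      exact (hκ _).trans (le_mul_of_one_le_left (b0.le.trans (hκ _)) (h1 _))
    · have u := Dg.part2 V (MR (fun _ => ()) (W.image ind) (dk κ)) (fun _ _ => rfl)
        (fun p => ξ p.1.1 p.1.2.1.support) c.1 hV
      replace u := u.trans (congrArg (sv _ _) ev)
      have := e _ _ (wd c.1).1 ((wd c.1).2.2.2.2 c.2) (wd c.1).2.2.1
      rw [prod_const_one, one_mul] at this
      exact (congrArg abs (u.trans ((congrArg (sv _ · _) (wd c.1).2.1.symm).trans
        (sv_sy _ hW _ _ (wd c.1).1)))).trans_le this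
    · have : Fintype.card {c : V.Cw (MR (fun _ => ()) (W.image ind) (dk κ)) // c.1.2.1 x ≠ 0} ≤
          Fintype.card V.C * #W := (Fintype.card_subtype_le _).trans
        ((Fintype.card_subtype_le _).trans (by
          rw [Fintype.card_prod]
          exact Nat.mul_le_mul_left _ ((Fintype.card_coe _).trans_le
            (card_erase_le.trans card_image_le))))
      exact_mod_cast this

theorem rx_sum {T : TS Unit} {W : Finset (Finset τ)} {blk : τ → L} {la : L → ℝ} {x : L}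
    {Y : T.C → Finset τ → ℤ} {J : Type} (S : Finset J) {b : ℝ}
    {F : J → (T.C → Finset τ → ℝ) → ℝ} (h : ∀ j ∈ S, Mv.Rx T W blk la x Y 1 b (F j)) :
    Mv.Rx T W blk la x Y 1 (#S * b) fun ξ => ∑ j ∈ S, F j ξ := by
  choose! I h1 h2 h3 using h
  refine ⟨fun ξ => ∑ j ∈ S, I j ξ, fun a b ξ1 ξ2 ξ k1 k2 k e => ?_, fun ξ k => ?_,
    fun ξ t k t0 e => ?_⟩
  · simp only [mul_sum, ← sum_add_distrib]
    exact sum_congr rfl fun j m => h1 j m a b ξ1 ξ2 ξ k1 k2 k e
  · choose! n hn using fun j m => h2 j m ξ k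
    exact ⟨∑ j ∈ S, n j, by push_cast; exact sum_congr rfl hn⟩
  · rw [sum_div, ← sum_sub_distrib, mul_left_comm, ← nsmul_eq_mul]
    exact (abs_sum_le_sum_abs _ _).trans (sum_le_card_nsmul _ _ _ fun j m => h3 j m ξ t k t0 e)

theorem rx_cg {T : TS Unit} {W : Finset (Finset τ)} {blk : τ → L} {la : L → ℝ} {x : L}
    {Y : T.C → Finset τ → ℤ} {q : ℕ} {b b' : ℝ} {F F' : (T.C → Finset τ → ℝ) → ℝ}
    (h : Mv.Rx T W blk la x Y q b F) (k : b ≤ b') (e : ∀ ξ, F' ξ = F ξ) :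
    Mv.Rx T W blk la x Y q b' F' :=
  let ⟨I, h1, h2, h3⟩ := h
  ⟨I, h1, h2, fun ξ t f t0 u => e ξ ▸ (h3 ξ t f t0 u).trans (mul_le_mul_of_nonneg_left k t0)⟩

variable {σ : Type} {T : TS Unit} {B : Bk (VV T.C σ) σ} {w : ℝ}

/-- the same for the diagonal tower -/
theorem brx (hV : (bar T B w).Ok) (hK : T.K = 1) (w1 : 1 ≤ w) {W : Finset (Finset τ)} (hW : Dw W)
    {blk : τ → L} {x : τ} (one : ∀ a, blk a = blk x → a = x) {κ : (τ →₀ ℕ) → ℝ} {b R : ℝ}
    (b0 : 0 < b) (R0 : 0 ≤ R) (hκ : ∀ μ, b ≤ κ μ) {Y : VV (T.C ⊕ B.N) τ → ℤ}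
    {G : (VV (T.C ⊕ B.N) τ → ℝ) → ℝ}
    (h : Sw.Rx ((bar T B w).sh (MR (fun _ => ()) (W.image ind) (dk κ))) (fun p => p.1.2.1 x ≠ 0)
      (fun p => (Y (p.1.1, p.1.2.1) : ℝ)) R fun ξ => G (ex _ _ id ξ)) :
    Mv.Rx (Bk.ext T (dg T B)) W blk (fun _ => 1) (blk x) (fun c A => Y (c, ind A)) 1
      (R * √((Fintype.card T.C + Fintype.card B.N) * #W / b))
      fun ξ => G (vw (Bk.ext T (dg T B)).lev (W.image ind) ξ) := by
  have := brx0 hV hW one b0 R0 (fun c c' n => ?_) (fun c => ?_) hκ (Bk.ext T (dg T B)).K h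
  · rw [show Fintype.card (bar T B w).C = Fintype.card T.C + Fintype.card B.N from
      Fintype.card_sum, Nat.cast_add] at this
    exact this
  · rcases c with c | a <;> rcases c' with c' | a'
    · change T.K c c' = 0
      rw [hK, one_apply_ne fun e => n (congrArg _ e)]
    · rfl
    · rfl
    · change w * (1 : Matrix B.N B.N ℝ) a a' = 0
      rw [one_apply_ne fun e => n (congrArg _ e), mul_zero]
  · rcases c with c | a
    · change 1 ≤ T.K c c
      rw [hK, one_apply_eq]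
    · change 1 ≤ w * (1 : Matrix B.N B.N ℝ) a a
      rwa [one_apply_eq, mul_one]

end rx

end Crest.Agent.N49.Pk.Br

end
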