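import Crest.Agent.N49.Pk.Defs
import Crest.Agent.N49.Pk.Brx

/-!
# Row 49 (helper35): `RXC`
-/

set_option autoImplicit false

open Matrix MvPolynomial Finset

noncomputable section

namespace Crest.Agent.N49.Pk

open Po Tw Sd Sy Md Sw

theorem rxc : RXC := by
  intro τ' L _ _ _ _ V v W' U' blk' x' κ n R Y G ok hK v1 dw hU one hκ cC cW hR ⟨I, i0, hI⟩
  subst hU
  have p : (0 : ℝ) < 2 ^ n := by positivity
  have h := Br.brx0 ok dw one (b := 1 / 2 ^ n) (R := 2 ^ n) (by positivity) p.le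
    (fun c c' k => by rw [hK, diagonal_apply_ne _ k]) (fun c => by
      rw [hK, diagonal_apply_eq]; exact v1 c) hκ V.K (Y := Y) (G := G) ⟨I, i0, fun ξ k =>
        (hI ξ k).trans (mul_le_mul_of_nonneg_right hR (Real.sqrt_nonneg _))⟩
  refine Br.rx_cg h ?_ fun _ => rfl
  rw [show 3 * n = n + 2 * n by ring, pow_add]
  refine mul_le_mul_of_nonneg_left (Real.sqrt_le_iff.2 ⟨by positivity, ?_⟩) p.le
  have a : (Fintype.card V.C : ℝ) ≤ 2 ^ n := by exact_mod_cast cC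
  have b : (#W' : ℝ) ≤ 2 ^ n := by exact_mod_cast cW
  have c : (1 : ℝ) ≤ 2 ^ n := one_le_pow₀ one_le_two
  rw [one_div, div_inv_eq_mul, mul_comm 2 n, pow_mul]
  calc _ ≤ (2 : ℝ) ^ n * 2 ^ n * 2 ^ n := by gcongr
    _ ≤ 2 ^ n * 2 ^ n * 2 ^ n * 2 ^ n := le_mul_of_one_le_right (by positivity) c
    _ = _ := by ring

end Crest.Agent.N49.Pk

end
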