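import Crest.Agent.N49.Pk.Defs

/-!
# Row 49 (helper82): relations add up
-/

set_option autoImplicit false

open Finset

noncomputable section

namespace Crest.Agent.N49.Pk

theorem rxs : RXS := by
  intro τ L J _ _ _ _ V W blk la x Y b b' c S F G h e hb
  choose! I h1 h2 h3 using h
  refine ⟨fun ξ => c * ∑ j ∈ S, I j ξ, fun a a' ξ1 ξ2 ξ f1 f2 f k => ?_, fun ξ f => ?_,
    fun ξ t f t0 k => ?_⟩
  · beta_reduce
    rw [sum_congr rfl fun j hj => h1 j hj a a' ξ1 ξ2 ξ f1 f2 f k, sum_add_distrib, ← mul_sum,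
      ← mul_sum]
    ring
  · choose! k hk using fun j hj => h2 j hj ξ f
    exact ⟨c * ∑ j ∈ S, k j, by beta_reduce; rw [sum_congr rfl hk]; push_cast; rfl⟩
  · have u : |∑ j ∈ S, (F j ξ - I j ξ)| ≤ #S * (t * b) := by
      refine (abs_sum_le_sum_abs _ _).trans ?_
      rw [← nsmul_eq_mul]
      exact sum_le_card_nsmul _ _ _ fun j hj => by simpa using h3 j hj ξ t f t0 k
    beta_reduce
    rw [e, Nat.cast_one, div_one, ← mul_sub, ← sum_sub_distrib, abs_mul, Nat.abs_cast]
    calc _ ≤ c * (#S * (t * b)) := mul_le_mul_of_nonneg_left u (Nat.cast_nonneg c)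
      _ = t * (c * #S * b) := by ring
      _ ≤ _ := mul_le_mul_of_nonneg_left hb t0

end Crest.Agent.N49.Pk

end
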