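import Crest.Agent.N49.Pk.Defs
import Crest.Agent.N49.Sw.Colw1
import Crest.Agent.N49.Sw.Desc

/-!
# Row 49 (helper17): the brackets on the big alphabet; the diagonal brackets (`SPT`)
-/

set_option autoImplicit false

open Matrix MvPolynomial Finset

noncomputable section

namespace Crest.Agent.N49.Pk

open Po Tw Sd Sw

namespace Sp0

theorem hom_dgl {τ : Type} (T : TS Unit) (B : Bk (VV T.C τ) τ)
    {P : MvPolynomial (VV T.C τ ⊕ B.N) ℝ} {w : τ →₀ ℕ}
    (h : P.IsWeightedHomogeneous (B.wg Prod.snd) w) : (dgl T B P).IsWeightedHomogeneous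
      (Sum.elim T.deg fun a => Finsupp.single () (B.wd a).degree) (Finsupp.single () w.degree) :=
  Ca.hom_ae ((Finsupp.singleAddHom ()).comp Finsupp.degree) h fun v => by
    rcases v with v | a
    · rw [Sum.elim_inl]
      split_ifs with e
      · rw [smul_eq_C_mul, ← zero_add (AddMonoidHom.comp _ _ _)]
        refine (isWeightedHomogeneous_C _ _).mul ?_
        have : T.deg v.1 = Finsupp.single () v.2.degree :=
          unit_ext (e.symm.trans (Finsupp.degree_single _ _).symm)
        exact Ca.hom_X this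
      · exact isWeightedHomogeneous_zero _ _ _
    · exact isWeightedHomogeneous_X ℝ _ (Sum.inr a)

end Sp0

open Sp0 in
theorem spt : SPT := by
  refine ⟨fun τ τ' L C _ _ _ _ blk x x' col U' Bt hx _ h => ⟨⟨Cw1.bo_sp h.bo, fun a ℓ => ?_, fun a => ?_⟩, ?_⟩,
    fun τ _ _ T Bt o h => ⟨⟨fun a e => h.ok.ne a ((Finsupp.degree_eq_zero_iff _).1
      (Finsupp.single_eq_zero.1 e)), fun a => hom_dgl T Bt (h.ok.hom a), fun _ c _ => o.ne c,
      fun a a' k => h.ok.tri a a' (De.dgl_vars k)⟩, fun E Γ m z => ?_⟩⟩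
  · rw [Finsupp.mapDomain_comp]
    exact (congrArg (fun μ => Finsupp.mapDomain blk μ ℓ) a.2).trans_le (h.tr _ ℓ)
  · exact by_contra fun n => Finsupp.mem_support_iff.1 (TS.mem_mapD col (Finsupp.mem_support_iff.2 n))
      ((congrArg (fun μ => μ (col x')) a.2).trans (hx ▸ h.fr _))
  · refine (Fintype.card_subtype_le _).trans ?_
    rw [Fintype.card_prod]
    exact Nat.mul_le_mul_left _ ((Fintype.card_coe _).trans_le card_erase_le)
  · have := hom_dgl T Bt (weightedHomogeneousComponent_isWeightedHomogeneous (wE E) Γ) z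
    refine (TS.weight_lev (T := Bk.ext T (dP T Bt)) m).trans
      ((congrArg Finsupp.degree this).trans ?_)
    simp [wE, map_sum]

end Crest.Agent.N49.Pk

end
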