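import Crest.Agent.N49.Pk.Defs
import Crest.Agent.N49.Pk.Brx
import Crest.Agent.N49.Sy.Swt

/-!
# Row 49 (helper47): symbols of word functions
-/

set_option autoImplicit false
set_option linter.unusedSectionVars false

open Matrix MvPolynomial Finset

noncomputable section

namespace Crest.Agent.N49.Pk

open Po Tw Sd Sy Md Rm Mv Sw
open Cn (mm)

namespace Sv
variable {τ τ' : Type} [Fintype τ] [DecidableEq τ] [Fintype τ'] [DecidableEq τ']

theorem wE_ind (E : Finset τ) : wE E = ind E :=
  Finsupp.ext fun t => by simp [wE, ind_apply, Finsupp.finsetSum_apply, Finsupp.single_apply]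

theorem ind_md {col : τ' → τ} {A : Finset τ'} (h : Set.InjOn col A) :
    (ind A).mapDomain col = ind (A.image col) := by
  rw [← wE_ind, ← wE_ind, wE, wE, sum_image h]
  exact (map_sum (Finsupp.mapDomain.addMonoidHom col) _ _).trans
    (sum_congr rfl fun _ _ => Finsupp.mapDomain_single)

theorem kp_ind (k : τ' → ℤ) (A : Finset τ') : Cn.kp k (ind A) = ∏ t ∈ A, k t :=
  prod_congr rfl fun t ht => by
    have : ind A t = 1 := if_pos ht
    beta_reduce
    rw [this, pow_one]

theorem md_ap (col : τ' → τ) (μ : τ' →₀ ℕ) (a : τ) :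
    μ.mapDomain col a = ∑ t with col t = a, μ t := by
  rw [Finsupp.mapDomain, Finsupp.sum_fintype _ _ fun _ => Finsupp.single_zero _,
    Finsupp.finsetSum_apply, sum_filter]
  exact sum_congr rfl fun t _ => Finsupp.single_apply

theorem md_ind {col : τ' → τ} {μ : τ' →₀ ℕ} {A : Finset τ} (h : μ.mapDomain col = ind A) :
    μ = ind μ.support ∧ Set.InjOn col μ.support ∧ ∀ t ∈ μ.support, col t ∈ A := by
  have e : ∀ a, ∑ t with col t = a, μ t = if a ∈ A then 1 else 0 := fun a => by
    rw [← md_ap, h, ind_apply]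
  have l : ∀ a, ∑ t with col t = a, μ t ≤ 1 := fun a => by rw [e]; split_ifs <;> omega
  refine ⟨?_, fun t a t' b c => by_contra fun n => ?_, fun t z => ?_⟩
  · ext t
    have := (single_le_sum (f := μ) (fun _ _ => Nat.zero_le _)
      (show t ∈ univ.filter (col · = col t) by simp)).trans (l _)
    rw [ind_apply]
    simp only [Finsupp.mem_support_iff]
    split_ifs <;> omega
  · have := (sum_le_sum_of_subset (f := μ) (show {t, t'} ⊆ univ.filter (col · = col t) by
      simp [insert_subset_iff, c])).trans (l _)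
    rw [sum_pair n] at this
    have a' := Finsupp.mem_support_iff.1 a
    have b' := Finsupp.mem_support_iff.1 b
    omega
  · by_contra n
    have := e (col t)
    rw [if_neg n, sum_eq_zero_iff] at this
    exact Finsupp.mem_support_iff.1 z (this t (by simp))
end Sv

theorem svs : SVS := by
  refine ⟨fun τ C _ _ lev Q z A h => Br.sv_sy' lev Q _ A fun c D _ => ?_,
    fun τ τ' L _ _ _ _ V blk W' col sg E Q ξ hW hE => ?_⟩
  · split_ifs with e
    · rfl
    · by_contra k
      exact e ((Br.deg_ind D).symm.trans (h c _ k))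
  have dw : Dw W' := fun B hB A k => (hW A).2 (((hW B).1 hB).mono (coe_subset.2 k))
  rw [Br.sv_sbv _ (Swt.dn_ind dw) Q (fun μ k => ?_), sum_image fun _ _ _ _ => ind_inj, sum_filter]
  · refine sum_congr rfl fun A a => ?_
    rw [Cn.smat_mm, Sv.ind_md ((hW A).1 a).of_comp, Sv.wE_ind, Sv.kp_ind]
    by_cases e : A.image col = E
    · rw [if_pos (congrArg _ e), if_pos e, Int.cast_prod]
      exact congrArg _ (Br.sv_sy V.lev dw Q ξ a)
    · rw [if_neg fun k => e (ind_inj k), if_neg e, Int.cast_zero, zero_mul]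
  · rw [Cn.smat_mm, Sv.wE_ind] at k
    obtain ⟨a, b, c⟩ := Sv.md_ind (by_contra fun n => k (if_neg n))
    refine mem_image.2 ⟨_, (hW _).2 (Set.InjOn.comp hE b fun t ht => ?_), a.symm⟩
    exact mem_coe.2 (c t (mem_coe.1 ht))

end Crest.Agent.N49.Pk

end
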