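import Crest.Agent.N49.Pk.Defs

/-!
# Row 49 (helper71): the universal variables of configurations (leaf `UVX`)
-/

set_option autoImplicit false
set_option linter.unusedSectionVars false

open Matrix MvPolynomial Finset

noncomputable section

namespace Crest.Agent.N49.Pk

open Po Tw Sd Sy Md Rm Mv Sw

namespace Uv

variable {τ L : Type} [Fintype τ] [DecidableEq τ] [Fintype L] [DecidableEq L]

theorem dg_ind (A : Finset τ) : (ind A).degree = #A :=
  (sum_congr rfl fun _ h => if_pos h).trans (card_eq_sum_ones A).symm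

/-- the universal variables of a point given by a word function -/
theorem uv_eq {B : Bs L} {W : Finset (Finset τ)} {s h : ℕ} (o : B.Ok s h) (p : B.SC W ⊕ L → ℝ)
    (g : B.T.C → Finset τ → ℝ) (k : ∀ w : B.SC W, p (.inl w) = g w.1.1 w.1.2) (v : VV B.T.C τ) :
    uv B W p v = if v.2 ∈ W.image ind ∧ v.2.degree = B.T.lev v.1 then g v.1 v.2.support else 0 := by
  obtain ⟨c, μ⟩ := v
  split_ifs with e
  · obtain ⟨A, a, rfl⟩ := mem_image.1 e.1
    let w : B.SC W := ⟨(c, A), Nat.lt_succ_of_le (o.old.stg.le c).1, a, (dg_ind A).symm.trans e.2⟩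
    rw [uv, sum_eq_single_of_mem w (by simp [w])]
    · exact k w
    · exact fun w' u n => absurd (Subtype.ext (Prod.ext (mem_filter.1 u).2.1
        (ind_inj (mem_filter.1 u).2.2))) n
  · refine sum_eq_zero fun w u => absurd ⟨?_, ?_⟩ e
    · exact mem_image.2 ⟨_, w.2.2.1, (mem_filter.1 u).2.2⟩
    · rw [← (mem_filter.1 u).2.2, ← (mem_filter.1 u).2.1]; exact (dg_ind _).trans w.2.2.2

theorem ex_out {T : TS Unit} {U : Finset (τ →₀ ℕ)} {K : Kn τ} {R : Type} [AddCommMonoid R]
    (y : T.Cw (MR (fun _ => ()) U K) → R) (v : VV T.C τ)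
    (e : ¬ (v.2 ∈ U ∧ v.2.degree = T.lev v.1)) : ex T _ id y v = 0 := by
  refine sum_eq_zero fun p u => absurd ⟨?_, ?_⟩ e
  · rw [← (mem_filter.1 u).2.2]; exact mem_of_mem_erase p.1.2.2
  · rw [← (mem_filter.1 u).2.2, ← (mem_filter.1 u).2.1]
    exact (Sh.cd_degree p.1.2).symm.trans (congrArg Finsupp.degree p.2)

theorem ex_cast {T : TS Unit} {S : Sh Unit τ} (y : T.Cw S → ℤ) (v : VV T.C τ) :
    ((ex T S id y v : ℤ) : ℝ) = ex T S id (zc y) v := by
  rw [ex, ex, Int.cast_sum]; rfl

end Uv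

open Uv in
/-- **the universal variables of configurations** -/
theorem uvx : UVX := by
  intro τ L _ _ _ _ B W U s h o e
  subst e
  refine ⟨fun K y => ⟨funext fun v => ?_, ex_cast y⟩, fun x P ξ => funext fun v => ?_⟩
  · rw [uv_eq o _ (fun c A => ex B.T _ id (zc y) (c, ind A)) fun w => ex_cast y _]
    split_ifs with k
    · obtain ⟨A, -, a⟩ := mem_image.1 k.1
      exact congrArg (ex B.T _ id (zc y)) (Prod.ext rfl (by rw [← a]; rfl))
    · exact (ex_out _ v k).symm
  · exact uv_eq o _ (fun c => ξ (.inl c)) (fun _ => rfl) v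

end Crest.Agent.N49.Pk

end
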