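import Crest.Agent.N49.Pk.Glue
import Crest.Agent.N49.Pk.Geo2
import Crest.Agent.N49.Pk.Canc
import Crest.Agent.N49.Pk.Spt
import Crest.Agent.N49.Pk.Svs
import Crest.Agent.N49.Pk.Rxc
import Crest.Agent.N49.Pk.Rxs
import Crest.Agent.N49.Pk.Uvx

/-!
# Row 49 (helper40): `PK` from the frame part
-/

namespace Crest.Agent.N49.Pk

theorem pkA {s M : ℕ} (h : PK2 s M) : PK s M := pk h geo canc spt svs rxc rxs uvx

end Crest.Agent.N49.Pk
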