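import Crest.Agent.N49.Pk.Cn0
import Crest.Agent.N49.Sw.Df5

/-!
# Row 49 (helper60): types after a substitution of the letters
-/

set_option autoImplicit false
set_option linter.unusedSectionVars false

open MvPolynomial Finset

noncomputable section

namespace Crest.Agent.N49.Pk.Cn

open Tw Sd Sw

variable {C σ τ L : Type} [Fintype σ] [DecidableEq σ] [Fintype τ] [DecidableEq τ] [Fintype L]
  [DecidableEq L] {B : Bk (VV C σ) σ} {col : τ → σ} {W : Finset (τ →₀ ℕ)} {blk : σ → L} {x : σ}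
  {x' : τ} {q q' : (σ →₀ ℕ) → Prop} {Γ Γ' : MvPolynomial (VV C σ ⊕ B.N) ℝ}

theorem map_at (h : ∀ t, col t = col x' → t = x') (μ : τ →₀ ℕ) : μ.mapDomain col (col x') = μ x' := by
  rw [Finsupp.mapDomain, Finsupp.sum_apply, Finsupp.sum, sum_eq_single x' (fun t _ e =>
    Finsupp.single_eq_of_ne fun z => e (h t z.symm))
    (fun z => by simp [Finsupp.notMem_support_iff.1 z]), Finsupp.single_eq_same]

theorem le_map (μ : τ →₀ ℕ) (t : τ) : μ t ≤ μ.mapDomain col (col t) := by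
  rw [Finsupp.mapDomain, Finsupp.sum_apply, Finsupp.sum]
  by_cases h : t ∈ μ.support
  · exact le_trans (by simp) (single_le_sum (f := fun a => Finsupp.single (col a) (μ a) (col t))
      (fun _ _ => Nat.zero_le _) h)
  · rw [Finsupp.notMem_support_iff.1 h]; exact Nat.zero_le _

theorem tyd_sp (h : Tyd blk x B) (bo : Bo (sp B col W)) (hx : col x' = x) :
    Tyd (blk ∘ col) x' (sp B col W) := ⟨bo, fun a ℓ => by
  rw [Finsupp.mapDomain_comp]
  exact (congrArg (fun μ => Finsupp.mapDomain blk μ ℓ) a.2).trans_le (h.tr _ ℓ), fun a =>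
  Nat.le_zero.1 ((le_map _ _).trans_eq ((congrArg (fun μ => μ (col x')) a.2).trans
    (hx ▸ h.fr _)))⟩

theorem tyf_mono (h : Tyf blk x B q Γ) (e : ∀ μ, (∀ ℓ, μ.mapDomain blk ℓ ≤ 1) → μ x = 1 → q μ → q' μ) :
    Tyf blk x B q' Γ := ⟨h.live, fun m k => let ⟨a, b, c⟩ := h.ty m k; ⟨a, b, e _ a b c⟩⟩

theorem tyf_zero : Tyf blk x B q 0 := ⟨by simp, by simp⟩

theorem tyf_add (h : Tyf blk x B q Γ) (k : Tyf blk x B q Γ') : Tyf blk x B q (Γ + Γ') := by
  classical
  exact ⟨fun v e => (mem_union.1 (vars_add_subset _ _ e)).elim (h.live v) (k.live v),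
    fun m e => (mem_union.1 (support_add e)).elim (h.ty m) (k.ty m)⟩

theorem tyf_sum {ι : Type} (s : Finset ι) {f : ι → MvPolynomial (VV C σ ⊕ B.N) ℝ}
    (h : ∀ i ∈ s, Tyf blk x B q (f i)) : Tyf blk x B q (∑ i ∈ s, f i) :=
  sum_induction _ _ (fun _ _ => tyf_add) tyf_zero h

theorem tyf_sub (h : Tyf blk x B q Γ) (e : Γ'.support ⊆ Γ.support) : Tyf blk x B q Γ' := by
  classical
  exact ⟨fun v k => let ⟨m, a, b⟩ := (mem_vars_iff_mem_support _).1 k
    h.live v ((mem_vars_iff_mem_support _).2 ⟨m, e a, b⟩), fun m k => h.ty m (e k)⟩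

theorem tyf_smul (h : Tyf blk x B q Γ) (c : ℝ) : Tyf blk x B q (c • Γ) := tyf_sub h support_smul

theorem cw_supp {E : Finset σ} {m : _ →₀ ℕ} (h : m ∈ (cw B E Γ).support) :
    m ∈ Γ.support ∧ Finsupp.weight (B.wg Prod.snd) m = wE E := by
  classical
  have := mem_support_iff.1 h
  rw [cw, coeff_weightedHomogeneousComponent] at this
  split_ifs at this with e
  exacts [⟨mem_support_iff.2 this, e⟩, absurd rfl this]

theorem tyf_cw (h : Tyf blk x B q Γ) (E : Finset σ) :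
    Tyf blk x B (fun μ => q μ ∧ μ = wE E) (cw B E Γ) :=
  ⟨(tyf_sub h fun _ k => (cw_supp k).1).live, fun m k =>
    let ⟨a, b, c⟩ := h.ty m (cw_supp k).1; ⟨a, b, c, (cw_supp k).2⟩⟩

/-- a form whose words are images of the words of `Γ` -/
theorem tyf_of (h : Tyf blk x B q Γ) (hx : col x' = x) (one : ∀ t, col t = col x' → t = x')
    {Q : MvPolynomial (VV C τ ⊕ (sp B col W).N) ℝ} {r : (τ →₀ ℕ) → Prop}
    (lv : ∀ v, Sum.inl v ∈ Q.vars → v.2 ≠ 0) (k : ∀ m' ∈ Q.support,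
      r (Finsupp.weight ((sp B col W).wg Prod.snd) m') ∧ ∃ m ∈ Γ.support,
      (Finsupp.weight ((sp B col W).wg Prod.snd) m').mapDomain col =
        Finsupp.weight (B.wg Prod.snd) m) :
    Tyf (blk ∘ col) x' (sp B col W) (fun μ => r μ ∧ q (μ.mapDomain col)) Q := ⟨lv, fun m' e => by
  obtain ⟨a, m, b, c⟩ := k m' e
  obtain ⟨t1, t2, t3⟩ := h.ty m b
  rw [Finsupp.mapDomain_comp, ← map_at one, c, hx]
  exact ⟨t1, t2, a, t3⟩⟩

theorem sbb_live (h : Tyf blk x B q Γ) (k : τ → ℤ) (v : VV C τ)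
    (e : Sum.inl v ∈ (aeval (sbb B col W (mm col k)) Γ).vars) : v.2 ≠ 0 := fun z =>
  h.live _ (sbb_vars e).1 ((congrArg (Finsupp.mapDomain col) z).trans Finsupp.mapDomain_zero)

theorem tyf_sbb (h : Tyf blk x B q Γ) (hx : col x' = x) (one : ∀ t, col t = col x' → t = x')
    (k : τ → ℤ) : Tyf (blk ∘ col) x' (sp B col W) (fun μ => kp k μ ≠ 0 ∧ q (μ.mapDomain col))
      (aeval (sbb B col W (mm col k)) Γ) :=
  tyf_of h hx one (sbb_live h k) fun _ => sbb_supp

theorem tyf_canc (h : Tyf blk x B q Γ) (hx : col x' = x) (one : ∀ t, col t = col x' → t = x')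
    (k0 k1 : τ → ℤ) (c : ℝ) : Tyf (blk ∘ col) x' (sp B col W)
      (fun μ => (kp k0 μ : ℝ) ≠ c * kp k1 μ ∧ q (μ.mapDomain col))
      (aeval (sbb B col W (mm col k0)) Γ - c • aeval (sbb B col W (mm col k1)) Γ) := by
  classical
  refine tyf_of h hx one (fun v e => ?_) fun _ => canc
  rw [sub_eq_add_neg, ← neg_smul] at e
  exact (mem_union.1 (vars_add_subset _ _ e)).elim (sbb_live h k0 v) fun e => by
    obtain ⟨m, a, b⟩ := (mem_vars_iff_mem_support _).1 e
    exact sbb_live h k1 v ((mem_vars_iff_mem_support _).2 ⟨m, support_smul a, b⟩)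

end Crest.Agent.N49.Pk.Cn

end
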