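import Crest.Agent.N49.Su.Df2
import Crest.Agent.N49.Sw.Df4
import Crest.Agent.N49.Tw.ConM

/-!
# Row 49 (helper72): the geometry of the big alphabet
-/

set_option autoImplicit false
set_option linter.unusedSectionVars false

open Finset

noncomputable section

namespace Crest.Agent.N49.Pk.Gy

open Tw Sd Sw Sy Md Su

section gen
variable {τ τ' L : Type} [Fintype τ] [DecidableEq τ] [Fintype τ'] [DecidableEq τ'] [Fintype L]
  [DecidableEq L]

theorem map_app (c : τ' → τ) (μ : τ' →₀ ℕ) (a : τ) :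
    μ.mapDomain c a = ∑ t with c t = a, μ t := by
  rw [Finsupp.mapDomain, Finsupp.sum_apply, Finsupp.sum_fintype _ _ (by simp), sum_filter]
  exact sum_congr rfl fun t _ => by rw [Finsupp.single_apply]

theorem deg_ind (B : Finset τ) : (ind B).degree = #B := by
  simp [Finsupp.degree_eq_sum, ind_apply]

theorem ind_on {c : τ' → τ} {A : Finset τ'} (h : Set.InjOn c A) :
    (ind A).mapDomain c = ind (A.image c) := by
  ext a
  rw [map_app, ind_apply]
  simp only [ind_apply, sum_ite, sum_const_zero, add_zero, sum_const, smul_eq_mul, mul_one]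
  split_ifs with e
  · obtain ⟨t, ht, rfl⟩ := mem_image.1 e
    refine card_eq_one.2 ⟨t, ?_⟩
    ext u
    simp only [mem_filter, mem_univ, true_and, mem_singleton]
    exact ⟨fun k => h k.2 ht k.1, fun k => by rw [k]; exact ⟨rfl, ht⟩⟩
  · refine card_eq_zero.2 (eq_empty_of_forall_notMem fun u k => e ?_)
    simp only [mem_filter, mem_univ, true_and] at k
    exact mem_image.2 ⟨u, k.2, k.1⟩

/-- a word whose image is squarefree -/
theorem sq_of {c : τ' → τ} {μ : τ' →₀ ℕ} (h : ∀ a, μ.mapDomain c a ≤ 1) :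
    ind μ.support = μ ∧ Set.InjOn c μ.support := by
  have k : ∀ t, μ t ≤ 1 := fun t => (single_le_sum (f := fun u => μ u)
    (s := univ.filter fun u => c u = c t) (fun _ _ => Nat.zero_le _)
    (mem_filter.2 ⟨mem_univ t, rfl⟩)).trans ((map_app c μ (c t)).ge.trans (h _))
  refine ⟨?_, fun t ht u hu e => ?_⟩
  · ext t
    rw [ind_apply]
    have := k t
    split_ifs with z
    · have := Finsupp.mem_support_iff.1 z; omega
    · exact (Finsupp.notMem_support_iff.1 z).symm
  · by_contra ne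
    have h2 := (sum_le_sum_of_subset (f := fun v => μ v) (s := {t, u})
      (t := univ.filter fun v => c v = c u) (by
        intro v hv
        rcases mem_insert.1 hv with rfl | hv
        · exact mem_filter.2 ⟨mem_univ _, e⟩
        · rw [mem_singleton.1 hv]; exact mem_filter.2 ⟨mem_univ _, rfl⟩)).trans
      ((map_app c μ (c u)).ge.trans (h _))
    rw [sum_pair ne] at h2
    have a := Finsupp.mem_support_iff.1 (mem_coe.1 ht)
    have b := Finsupp.mem_support_iff.1 (mem_coe.1 hu)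
    omega

variable {s : ℕ} {W : Finset (Finset τ)} {blk : τ → L} {x : τ}

theorem al_le (h : Al s W blk x) {A : Finset τ} (hA : A ∈ W) : #A ≤ s :=
  ((card_le_card_of_injOn blk (t := univ) (fun _ _ => by simp) ((h.mem A).1 hA)).trans_eq
    card_univ).trans h.cL

theorem al_wf (h : Al s W blk x) : Wf s W blk :=
  ⟨fun B hB A hA => (h.mem A).2 (((h.mem B).1 hB).mono hA), fun B hB => (h.mem B).1 hB,
    fun _ hB => al_le h hB⟩

theorem mem_ind (h : Al s W blk x) {μ : τ →₀ ℕ} :
    μ ∈ W.image ind ↔ ∀ ℓ, μ.mapDomain blk ℓ ≤ 1 := by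
  refine ⟨fun k ℓ => ?_, fun k => mem_image.2 ⟨_, (h.mem _).2 (sq_of k).2, (sq_of k).1⟩⟩
  obtain ⟨A, hA, rfl⟩ := mem_image.1 k
  rw [ind_on ((h.mem A).1 hA), ind_apply]
  split_ifs <;> simp

open Classical in
/-- all the transversal words -/
def Wa (blk : τ → L) : Finset (Finset τ) := univ.filter fun A => Set.InjOn blk A

theorem mem_Wa {A : Finset τ} : A ∈ Wa blk ↔ Set.InjOn blk A := by simp [Wa]

theorem al_eq (h : Al s W blk x) : W = Wa blk := by ext A; rw [h.mem, mem_Wa]

/-- a section of the colouring preserves the words -/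
theorem img_iff {W' : Finset (Finset τ')} {col : τ' → τ} {i : τ → τ'} {x' : τ'}
    (h : Al s W blk x) (h' : Al s W' (blk ∘ col) x') (ci : ∀ a, col (i a) = a) (A : Finset τ) :
    A ∈ W ↔ A.image i ∈ W' := by
  rw [h.mem, h'.mem]
  refine ⟨fun k t ht u hu e => ?_, fun k a ha b hb e => ?_⟩
  · obtain ⟨a, ha, rfl⟩ := mem_image.1 (mem_coe.1 ht)
    obtain ⟨b, hb, rfl⟩ := mem_image.1 (mem_coe.1 hu)
    rw [Function.comp, Function.comp, ci, ci] at e
    rw [k ha hb e]
  · have := k (mem_coe.2 (mem_image_of_mem i ha)) (mem_coe.2 (mem_image_of_mem i hb))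
      (by rw [Function.comp, Function.comp, ci, ci]; exact e)
    rw [← ci a, this, ci]

theorem dn_col {W' : Finset (Finset τ')} {col : τ' → τ} {x' : τ'}
    (h : Al s W blk x) (h' : Al s W' (blk ∘ col) x') {A : Finset τ'} (j : Set.InjOn col A)
    (k : A.image col ∈ W) : A ∈ W' := (h'.mem A).2 fun _ ht _ hu e =>
  j ht hu ((h.mem _).1 k (mem_coe.2 (mem_image_of_mem col ht))
    (mem_coe.2 (mem_image_of_mem col hu)) e)

/-- the words over the words -/
theorem flt_eq {W' : Finset (Finset τ')} {col : τ' → τ} {x' : τ'}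
    (h : Al s W blk x) (h' : Al s W' (blk ∘ col) x') :
    ((full τ' s).filter fun μ => μ.mapDomain col ∈ W.image ind) = W'.image ind := by
  ext μ
  rw [mem_filter, mem_ind h, mem_ind h', Finsupp.mapDomain_comp]
  refine ⟨fun k => k.2, fun k => ⟨?_, k⟩⟩
  rw [← Finsupp.mapDomain_comp] at k
  rw [mem_full, ← (sq_of k).1, deg_ind]
  exact al_le h' ((h'.mem _).2 (sq_of k).2)

end gen

variable {σ I κ L : Type} [Fintype σ] [DecidableEq σ] [Fintype I] [DecidableEq I] [Fintype κ]
  [DecidableEq κ] [Fintype L] [DecidableEq L] {l s : ℕ} {q : Gq σ I κ l}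
  {W : Finset (Finset σ)} {blk : σ → L}

theorem al1 (o : q.Ok s) (h : Al s W blk q.x) :
    Al s (Wa (blk ∘ q.cl)) (blk ∘ q.cl) (.inl q.x) := ⟨fun _ => mem_Wa, fun a e => by
  have := h.one _ e
  rcases a with a | a
  · exact congrArg _ this
  · exact (o.x _ this).elim, h.cL⟩

theorem W'_eq {W1 : Finset (Finset (σ ⊕ κ × Bool))} {x' : σ ⊕ κ × Bool} (h : Al s W blk q.x)
    (e : q.W = W.image ind) (h' : Al s W1 (blk ∘ q.cl) x') : q.W' s = W1.image ind := by
  rw [Gq.W', e]
  convert flt_eq h h'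

variable (q)

/-- the directions -/
def ii (a : σ) : σ ⊕ κ × Bool := if h : ∃ k, q.kp k = a then .inr (h.choose, false) else .inl a
/-- the multipliers of the vertex `false` -/
def kk : σ ⊕ κ × Bool → ℕ := Sum.elim (fun _ => 1) fun h => if h.2 then 0 else q.mc
/-- the multipliers of the directions -/
def mu (a : σ) : ℕ := if ∃ k, q.kp k = a then 1 else q.mc
/-- the multipliers of the blocks -/
def mb (blk : σ → L) (ℓ : L) : ℕ := if ∃ k, blk (q.kp k) = ℓ then 1 else q.mc

theorem cl_ii (a : σ) : q.cl (ii q a) = a := by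
  unfold ii
  split_ifs with h
  · exact h.choose_spec
  · rfl

theorem ii_inj : Function.Injective (ii q) := Function.LeftInverse.injective (cl_ii q)

theorem ii_of {a : σ} (h : ∀ k, q.kp k ≠ a) : ii q a = .inl a := dif_neg fun ⟨k, e⟩ => h k e

theorem r0_eq : (q.r0 fun _ => false) = fun t => Pi.single (q.cl t) (kk q t : ℤ) := by
  funext t
  rcases t with a | ⟨k, _ | _⟩ <;> simp [Gq.r0, Gq.cl, kk]

theorem mu_kk (a : σ) : mu q a * kk q (ii q a) = q.mc := by
  unfold mu ii
  split_ifs <;> simp [kk]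

variable {q}

theorem ii_kp (o : q.Ok s) (k : κ) : ii q (q.kp k) = .inr (k, false) := by
  have h : ∃ k', q.kp k' = q.kp k := ⟨k, rfl⟩
  rw [ii, dif_pos h, o.inj h.choose_spec]

theorem ii_x (o : q.Ok s) : ii q q.x = .inl q.x := ii_of q o.x

theorem mb_eq (h : ∀ a k, blk a = blk (q.kp k) → ∃ k', q.kp k' = a) (a : σ) :
    mb q blk (blk a) = mu q a := by
  unfold mb mu
  refine if_congr ⟨fun ⟨k, e⟩ => h a k e.symm, fun ⟨k, e⟩ => ⟨k, by rw [e]⟩⟩ rfl rfl

theorem mb_kk (h : ∀ a k, blk a = blk (q.kp k) → ∃ k', q.kp k' = a) (a : σ) :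
    mb q blk (blk a) * kk q (ii q a) = q.mc := by rw [mb_eq h, mu_kk]

theorem mb_le {n : ℕ} (m1 : 1 ≤ q.mc) (mn : q.mc ≤ n) (ℓ : L) :
    1 ≤ mb q blk ℓ ∧ mb q blk ℓ ≤ n := by
  unfold mb; split_ifs <;> omega

theorem ct {W1 : Finset (Finset (σ ⊕ κ × Bool))} {x' : σ ⊕ κ × Bool} {n : ℕ} (h : Al s W blk q.x)
    (h' : Al s W1 (blk ∘ q.cl) x') (m1 : 1 ≤ q.mc) (mn : q.mc ≤ n)
    (cd : Fintype.card σ + Fintype.card κ * 2 ≤ n) :
    Fz.Ct s n W W1 q.cl (ii q) (mu q) (kk q) q.mc := by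
  have p : n ≤ 2 ^ n := Nat.lt_two_pow_self.le
  refine ⟨(al_wf h').dw, (al_wf h').le, cl_ii q, fun A k => (img_iff h h' (cl_ii q) A).2 k,
    fun A j k => dn_col h h' j k, fun a => ?_, fun t => ?_, ⟨m1, mn.trans p⟩, mu_kk q,
    by simpa using cd⟩
  · unfold mu; split_ifs <;> omega
  · rcases t with a | ⟨k, _ | _⟩ <;> simp only [kk, Sum.elim_inl, Sum.elim_inr] <;>
      first | omega | (split_ifs <;> omega)

end Crest.Agent.N49.Pk.Gy

end
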