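import Crest.Agent.N49.Pk.Defs
import Crest.Agent.N49.St.Geo
import Crest.Agent.N49.Sw.Sbc
import Crest.Agent.N49.Sw.Cola
import Crest.Agent.N49.Sw.Coln
import Crest.Agent.N49.Md.Idf
import Crest.Agent.N49.Un.Pre
import Crest.Agent.N49.Top.Pl

/-!
# Row 49 (helper40): `PK` from its leaves
-/

set_option autoImplicit false
set_option linter.unusedSectionVars false

open Matrix MvPolynomial Finset

noncomputable section

namespace Crest.Agent.N49.Pk

open Po Tw Sd Sy Md Rm Mv Sw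
open Crest.Agent.N49.Top (Pl)
open Cn (mm)
open Su (sbq Gq)

variable {τ τ' L I D : Type} [Fintype τ] [DecidableEq τ] [Fintype τ'] [DecidableEq τ'] [Fintype L]
  [DecidableEq L] [Fintype I] [DecidableEq D]

/-- the diagonal of a word -/
def dq (T : TS Unit) (Bt : Bk (VV T.C τ) τ) (E : Finset τ) (Γ : MvPolynomial (VV T.C τ ⊕ Bt.N) ℝ) :
    MvPolynomial (Bk.ext T (dP T Bt)).C ℝ := dgl T Bt (cw Bt E Γ)

/-- the symbols -/
def pI (T : TS Unit) (Bt : Bk (VV T.C τ) τ) (col : τ' → τ) (dd : I → D) (E : I → Finset τ)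
    (sg : τ' → ℤ) (c0 : ℕ) (Γ : D → MvPolynomial (VV T.C τ ⊕ Bt.N) ℝ) (d : D) (A : Finset τ') :
    MvPolynomial (Bk.ext T (dP T Bt)).C ℝ :=
  ∑ j with dd j = d, if A.image col = E j ∧ #A = #(E j) then
    ((c0 : ℝ) * ∏ t ∈ A, (sg t : ℝ)) • dq T Bt (E j) (Γ d) else 0

theorem pI_hom (sp : SPT) {T : TS Unit} {Bt : Bk (VV T.C τ) τ} (o : T.Ok) (b : Bo Bt)
    (col : τ' → τ) (dd : I → D) (E : I → Finset τ) (sg : τ' → ℤ) (c0 : ℕ)
    (Γ : D → MvPolynomial (VV T.C τ ⊕ Bt.N) ℝ) (d : D) (A : Finset τ') :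
    (pI T Bt col dd E sg c0 Γ d A).IsWeightedHomogeneous (Bk.ext T (dP T Bt)).lev #A := by
  refine IsWeightedHomogeneous.sum _ _ _ fun j _ => ?_
  split_ifs with h
  · rw [h.2]
    exact (weightedHomogeneousSubmodule ℝ _ _).smul_mem _ ((sp.2 τ T Bt o b).2 (E j) (Γ d))
  · exact isWeightedHomogeneous_zero _ _ _

theorem pI_sum {s : ℕ} {T : TS Unit} {Bt : Bk (VV T.C τ) τ} {W : Finset (Finset τ)} {blk : τ → L}
    {x : τ} {x' : τ'} {W' : Finset (Finset τ')} {col : τ' → τ} {U : Finset L} {dd : I → D}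
    {E : I → Finset τ} (a : Al s W' (blk ∘ col) x') (g : Gw W blk x U dd E) (sg : τ' → ℤ) (c0 : ℕ)
    (Γ : D → MvPolynomial (VV T.C τ ⊕ Bt.N) ℝ) (d : D)
    (ξ : (Bk.ext T (dP T Bt)).C → Finset τ' → ℝ) :
    ∑ A ∈ W' with blk x ∈ A.image (blk ∘ col),
      Sy.sy (Bk.ext T (dP T Bt)).lev (pI T Bt col dd E sg c0 Γ d A) ξ A =
    c0 * ∑ j with dd j = d, ∑ A ∈ W' with A.image col = E j, (∏ t ∈ A, (sg t : ℝ)) *
      Sy.sy (Bk.ext T (dP T Bt)).lev (dq T Bt (E j) (Γ d)) ξ A := by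
  simp only [pI, sy_sum]
  rw [sum_comm, mul_sum]
  refine sum_congr rfl fun j _ => ?_
  rw [mul_sum, sum_filter, sum_filter]
  refine sum_congr rfl fun A hA => ?_
  by_cases e : A.image col = E j
  · have h1 : blk x ∈ A.image (blk ∘ col) := by
      rw [← image_image, e, (g.mem j).2]; exact g.x
    have h2 : #A = #(E j) := by
      rw [← e, card_image_of_injOn (((a.mem A).1 hA).of_comp)]
    rw [if_pos h1, if_pos e, if_pos (And.intro e h2), sy_smul, mul_assoc]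
  · rw [if_neg e, if_neg (show ¬ (A.image col = E j ∧ #A = #(E j)) from fun k => e k.1), sy_zero,
      ite_self]

theorem dg_le {C : Type} {s : ℕ} {W : Finset (Finset τ)} {blk : τ → L} {x : τ}
    {B : Bk (VV C τ) τ} (a : Al s W blk x) (h : Tyd blk x B) (b : B.N) : (B.wd b).degree ≤ s := by
  rw [← Finsupp.degree_mapDomain blk, Finsupp.degree_eq_sum]
  exact ((sum_le_card_nsmul _ _ 1 fun ℓ _ => h.tr b ℓ).trans_eq (by simp)).trans a.cL

theorem deg_ind (B : Finset τ) : (ind B).degree = #B := by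
  simp [Finsupp.degree_eq_sum, ind_apply]

theorem dn_al {s : ℕ} {W : Finset (Finset τ)} {blk : τ → L} {x : τ} (h : Al s W blk x) :
    Dn (W.image ind) := fun _ a _ b =>
  (St.mem_W h).2 fun ℓ => (Finsupp.mapDomain_mono b ℓ).trans ((St.mem_W h).1 a ℓ)

theorem ge_mono {s n n' : ℕ} {W : Finset (Finset τ)} {blk : τ → L} {x : τ}
    {W' : Finset (Finset τ')} {col : τ' → τ} {i : τ → τ'} {m : L → ℕ} {k : τ' → ℕ} {c : ℕ}
    (g : Ge s n W blk x W' col i m k c) (e : n ≤ n') : Ge s n' W blk x W' col i m k c :=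
  have p : 2 ^ n ≤ 2 ^ n' := Nat.pow_le_pow_right two_pos e
  ⟨g.al, g.al', g.ci, fun ℓ => ⟨(g.m1 ℓ).1, (g.m1 ℓ).2.trans e⟩, fun t => (g.k1 t).trans p,
    ⟨g.c1.1, g.c1.2.trans p⟩, g.mu, g.cd.trans e⟩

theorem b1_ok {B : Bs L} {s h : ℕ} (o : B.Ok s h) : (b1 B).Ok s h :=
  ⟨o.old, fun _ => ⟨by simpa using Un.half_le (Nat.zero_le h), one_le_pow₀ one_le_two⟩⟩

theorem bar_K {T : TS Unit} (h : T.K = 1) (B : Bk (VV T.C τ) τ) (w : ℝ) :
    (bar T B w).K = diagonal (Sum.elim (fun _ => 1) fun _ => w) := by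
  have : (w • (1 : Matrix B.N B.N ℝ)) = diagonal fun _ => w := by
    rw [smul_one_eq_diagonal]
  change fromBlocks T.K 0 0 (w • 1) = _
  rw [h, this, ← diagonal_one]
  exact fromBlocks_diagonal _ _

theorem num {n s c0 k N : ℕ} (h : n * s + 10 * n ≤ N) (hc : c0 ≤ 2 ^ (n * s)) (hk : k ≤ n) :
    (c0 : ℝ) * k * 2 ^ (3 * (3 * n)) ≤ 2 ^ N := by
  have : c0 * k * 2 ^ (3 * (3 * n)) ≤ 2 ^ N := by
    refine (Nat.mul_le_mul_right _ (Nat.mul_le_mul hc (hk.trans Nat.lt_two_pow_self.le))).trans ?_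
    rw [← pow_add, ← pow_add]
    exact Nat.pow_le_pow_right two_pos (by omega)
  exact_mod_cast this

/-- **`PACK`** -/
theorem pk {s M : ℕ} (h2 : PK2 s M) (geo : GEO) (ca : CANC) (spt : SPT) (sv : SVS) (rc : RXC)
    (rs : RXS) (ux : UVX) : PK s M := by
  obtain ⟨e, h2⟩ := h2
  obtain ⟨a, ha⟩ : Pl fun n => n * (3 * n + 1) ^ s + n * s + 10 * n := by pl
  refine ⟨a * e, fun K' => ?_⟩
  obtain ⟨K, h2⟩ := h2 K'
  refine ⟨a * K, fun τ L D I κ _ _ _ _ _ _ _ _ _ l n B W blk q H F Bt Γ p p' U dd w κ0 b R K0 H0 κ'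
    o sb hM g rm mc cD cI cκ w1 hb bκ hκ hR rg od hH hP => ?_⟩
  classical
  obtain ⟨W', i, m, k, sg, c0, ge, hW', hx, r0, r2, gj, hc0, hw⟩ :=
    geo τ L D I κ l s n W blk U q dd g mc sb.cτ cκ
  have n1 := ha n sb.two
  beta_reduce at n1
  have n3 : 3 * n ≤ n ^ a := by omega
  have n0 : n ≤ n ^ a := by omega
  have hi : Function.Injective i := Function.LeftInverse.injective ge.ci
  have dn : Dn (q.W' s) := hW' ▸ dn_al ge.al'
  obtain ⟨t1, t2⟩ := spt.1 τ _ L _ blk q.x (i q.x) q.cl (q.W' s) Bt (ge.ci _) dn od.tyd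
  have cU : #(q.W' s) ≤ (3 * n + 1) ^ s := ((card_filter_le _ _).trans (Sw.Cn.card_full' _ s)).trans
    (Nat.pow_le_pow_left (Nat.succ_le_succ ge.cd) s)
  have p2 : (2 : ℝ) ^ n ≤ 2 ^ n ^ a := pow_le_pow_right₀ one_le_two n0
  have dg := dg_le g.al od.tyd
  have key := h2 τ _ L D B W blk q.x W' q.cl i hi m k q.mc (n ^ a) (q.W' s) κ' _ H F Bt Γ p p'
    (sp Bt q.cl (q.W' s)) o
    (fun d => sbq Bt q.cl (q.W' s) (mm q.cl fun t => k t) (Γ d) -
      gr Bt q.cl (q.W' s) dd q.E sg (l + 1).factorial c0 d (Γ d))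
    (fun d => gr Bt q.cl (q.W' s) dd q.E sg (l + 1).factorial c0 d (Γ d)) (dP B.T Bt)
    (pI B.T Bt q.cl dd q.E sg c0 Γ)
    ⟨sb.two.trans n0, Idf.bs_mono sb.ok n0, sb.wf, sb.cC.trans (Nat.pow_le_pow_right two_pos n0),
      sb.cτ.trans n0⟩ hM (ge_mono ge n3) hW' (cD.trans n0)
    (fun ω _ => ⟨((Un.half_le n0).trans hb).trans (hκ ω).1, (hκ ω).2⟩) (by rw [← pow_mul]; exact rg)
    ((Un.half_le n0).trans hP)
    ⟨od.dat, od.tyd, od.card.trans n0, od.tyf, fun y hy d => (od.rel y hy d).mono p2⟩ t1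
    (t2.trans ((Nat.mul_le_mul od.card cU).trans (by omega))) rm.dn
    (fun d => ca τ _ L _ I D s _ W blk q.x W' q.cl i hi m k q.mc c0 _ _ Bt (Γ d) p p' U dd q.E sg d
      ge g.gw gj rm od.tyd (od.tyf d))
    ⟨(spt.2 τ B.T Bt sb.ok.old.ok od.tyd.bo).1, od.card.trans n0, fun a =>
      (Finsupp.degree_single _ _).trans_le (dg a)⟩
    (pI_hom spt sb.ok.old.ok od.tyd.bo _ _ _ _ _ _) ?_
  · obtain ⟨f, H', f1, f2, f3, f4, f5, f6, f7, f8, f9⟩ := key
    rw [← pow_mul] at f1 f4 f5 f7 f9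
    exact ⟨f, H', f1, f2, f3, f4, f5,
      Un.rg_mono f1.old.stg f6 (Nat.pow_le_pow_left n0 K'), f7, f8, f9⟩
  rintro y ⟨kk, Y, oq⟩
  obtain ⟨u1, u2⟩ := (ux τ L B W q.W s n sb.ok g.hW.symm).1 K0 (hs B.T _ (q.r0 fun _ => false) y)
  refine ⟨_, hH _ oq.pt, fun v => ?_, kk, fun c A => Y (c, ind A), oq.cell,
    ⟨fun v => oq.old _ _, fun c A hA xA dA => ?_⟩, fun d => ⟨?_, fun z => ?_⟩⟩
  · rw [u2, ← r0]
    exact (sbc _ _ _ _ B.T id _ _ _ _ _ _ _ fun _ _ _ => rfl).1 y _ _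
      (g.hW ▸ mem_image_of_mem _ v.2.2.1)
  · have dA' : #A = (Bt.wd c).degree := dA.trans (Finsupp.degree_single _ _)
    have := oq.err c (ind A) (hW' ▸ mem_image_of_mem _ hA)
      (by rw [ind_apply, if_neg fun z => xA (mem_image_of_mem _ z)]) ((deg_ind A).trans dA')
    rw [sv.1 _ (B.T.C ⊕ Bt.N) (bar B.T Bt w).lev (dgl B.T Bt (Bt.Θ c)) (fun v => (Y v : ℝ)) A
      fun c μ z => (oq.deg c μ (by exact_mod_cast z)).2] at this
    refine le_trans (le_of_eq (congrArg abs ?_)) (this.trans (hR.trans p2))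
    refine (sy_sub _ _ _ _ _).trans ?_
    exact congrArg₂ (fun u v : ℝ => u - v) ((sy_X (Bk.ext B.T (dP B.T Bt)).lev _ A (.inr c)).trans
      (if_pos dA)) rfl
  · have tb := Ca.tb_bar (w := w) ⟨sb.ok.old.ok, sb.ok.old.stg, sb.ok.old.lev, sb.ok.old.one⟩
      od.tyd.bo dg (one_pos.trans_le w1)
    have m3 : n ≤ 3 * n := by omega
    refine rs _ L I (Bk.ext B.T (dP B.T Bt)) W' _ _ _ _ (2 ^ (3 * (3 * n))) _ c0
      (univ.filter fun j => dd j = d) (fun j ξ => (l + 1).factorial * eval (Sum.elim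
        (fun v => zv (bar B.T Bt w) (q.W' s) ξ (.inl v.1, v.2)) fun x => (kk x : ℝ))
        (sbq Bt q.cl (q.W' s) q.r2 (cw Bt (q.E j) (Γ (dd j)))) -
        Sw.sv (dgl B.T Bt (cw Bt (q.E j) (Γ (dd j)))) (q.w (q.ec j))
          (sbv q.r2 (q.W' s) (zv (bar B.T Bt w) (q.W' s) ξ))) _ (fun j _ => ?_) (fun ξ => ?_)
      (num (by omega) hc0 ((card_le_univ _).trans cI))
    · exact rc _ L (bar B.T Bt w) _ W' (q.W' s) (blk ∘ q.cl) (.inl q.x) (q.kf κ0 b) (3 * n) R Y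
        (fun z => (l + 1).factorial * eval (Sum.elim (fun v => z (.inl v.1, v.2))
          fun x => (kk x : ℝ)) (sbq Bt q.cl (q.W' s) q.r2 (cw Bt (q.E j) (Γ (dd j)))) -
          Sw.sv (dgl B.T Bt (cw Bt (q.E j) (Γ (dd j)))) (q.w (q.ec j)) (sbv q.r2 (q.W' s) z))
        tb.ok (bar_K sb.ok.old.K Bt w) (by rintro (c | c); exacts [le_rfl, w1])
        (fun A hA A' e => (ge.al'.mem A').2 (((ge.al'.mem A).1 hA).mono e)) hW' (hx ▸ ge.al'.one)
        (fun ω => ((Un.half_le m3).trans hb).trans (by unfold Gq.kf; split_ifs; exacts [bκ, le_rfl]))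
        (by
          refine (Fintype.card_sum.trans_le (Nat.add_le_add sb.cC
            (od.card.trans Nat.lt_two_pow_self.le))).trans ?_
          rw [← two_mul, ← pow_succ']
          exact Nat.pow_le_pow_right two_pos (by have := sb.two; omega))
        (((card_le_univ _).trans_eq Fintype.card_finset).trans (Nat.pow_le_pow_right two_pos ge.cd))
        (hR.trans (pow_le_pow_right₀ one_le_two m3)) (oq.rel j)
    · rw [(ux _ L (b1 B) W' (q.W' s) s n (b1_ok sb.ok) hW').2, pI_sum ge.al' g.gw, gr, smul_eval,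
        map_sum, sum_sub_distrib, mul_sub]
      refine congrArg₂ (fun u v : ℝ => c0 * u - c0 * v) (sum_congr rfl fun j hj => ?_)
        (sum_congr rfl fun j hj => ?_)
      · rw [smul_eval, r2, (mem_filter.1 hj).2]
        rfl
      · rw [hw, r2, (mem_filter.1 hj).2, ← hW']
        exact (sv.2 τ _ L (Bk.ext B.T (dP B.T Bt)) blk W' q.cl sg (q.E j) _ ξ ge.al'.mem
          ((g.al.mem _).1 (g.gw.mem j).1)).symm
  · rw [map_sub, sub_add_cancel, u1]
    refine ((Cn.eval_sbb Bt q.cl (q.W' s) _ z _ (Γ d)).trans ?_).symm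
    refine congrArg (fun u => eval (Sum.elim _ u) (Γ d)) (funext fun c => ?_)
    rw [oq.om, r0]
    push_cast
    rfl

end Crest.Agent.N49.Pk

end
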