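import Crest.Agent.N49.Pk.Defs
import Crest.Agent.N49.Sw.Abs0
import Crest.Agent.N49.Sw.Pul0
import Crest.Agent.N49.Sw.Rnm
import Crest.Agent.N49.Sw.Kmq
import Crest.Agent.N49.Mv.Move

/-!
# Row 49 (helper24): the new relations are absorbed, pulled back and restricted
-/

set_option autoImplicit false
set_option linter.unusedSectionVars false

open Matrix MvPolynomial Finset

noncomputable section

namespace Crest.Agent.N49.Pk

open Po Tw Sd Sy Md Rm Mv Sw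

namespace Nw

variable {τ τ' L : Type} [Fintype τ] [DecidableEq τ] [Fintype τ'] [DecidableEq τ'] [Fintype L]
  [DecidableEq L] {s n : ℕ} {W : Finset (Finset τ)} {blk : τ → L} {x : τ}

theorem wf (a : Al s W blk x) : Wf s W blk :=
  ⟨fun B k A l => (a.mem A).2 (((a.mem B).1 k).mono l), fun B k => (a.mem B).1 k, fun B k =>
    (card_le_card_of_injOn blk (fun _ _ => mem_univ _) ((a.mem B).1 k)).trans a.cL⟩

variable {W' : Finset (Finset τ')} {col : τ' → τ} {i : τ → τ'} {m : L → ℕ} {k : τ' → ℕ} {c : ℕ}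

theorem inj (g : Ge s n W blk x W' col i m k c) : Function.Injective i :=
  Function.LeftInverse.injective g.ci

theorem blk_i (g : Ge s n W blk x W' col i m k c) (a : τ) : (blk ∘ col) (i a) = blk a :=
  congrArg blk (g.ci a)

theorem im (g : Ge s n W blk x W' col i m k c) (A : Finset τ) : A ∈ W ↔ A.image i ∈ W' := by
  refine ⟨Kq.im_mem g.al g.al' g.ci A, fun h => (g.al.mem A).2 fun a ha b hb e => inj g ?_⟩
  exact (g.al'.mem _).1 h (mem_coe.2 (mem_image_of_mem i ha)) (mem_coe.2 (mem_image_of_mem i hb))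
    ((blk_i g a).trans (e.trans (blk_i g b).symm))

theorem sb {B : Bs L} (h : Sb B W blk s n) (g : Ge s n W blk x W' col i m k c) :
    Sb (b1 B) W' (blk ∘ col) s n :=
  ⟨h.two, ⟨h.ok.old, fun _ => ⟨(div_le_one (by positivity)).2 (one_le_pow₀ one_le_two),
    one_le_pow₀ one_le_two⟩⟩, wf g.al', h.cC, g.cd⟩

theorem cf_zz (B : Bs L) (W : Finset (Finset τ)) (W' : Finset (Finset τ')) (i : τ → τ')
    (y : B.SC W → ℤ) : (TT.cf (zz B W W' i y) : B.SC W' ⊕ L → ℝ) = Fz.zx B W W' i (TT.cf y) := by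
  funext v
  cases v with
  | inl w => exact Int.cast_sum _ _
  | inr ℓ => rfl

theorem pw_mono {B : Bs L} {ℓ : L} {P : Bk B.T.C Unit} {y : B.SC W → ℤ}
    {Y : (Bk.ext B.T P).C → Finset τ → ℤ} {n' : ℕ} (h : Pw B W blk ℓ P n y Y) (e : n ≤ n') :
    Pw B W blk ℓ P n' y Y :=
  ⟨h.old, fun a A b c d => (h.err a A b c d).trans (pow_le_pow_right₀ one_le_two e)⟩

end Nw

open Nw in
/-- **absorb, pull back, restrict** -/
theorem newp (s : ℕ) : ∃ K : ℕ, 1 ≤ K ∧ ∀ (τ τ' L D : Type) [Fintype τ] [DecidableEq τ]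
    [Fintype τ'] [DecidableEq τ'] [Fintype L] [DecidableEq L] [Fintype D] (B : Bs L)
    (W : Finset (Finset τ)) (blk : τ → L) (x : τ) (W' : Finset (Finset τ')) (col : τ' → τ)
    (i : τ → τ') (m : L → ℕ) (k : τ' → ℕ) (c n h : ℕ) (f : Fr B.T τ' L) (P : Bk B.T.C Unit)
    (Pi : D → Finset τ' → MvPolynomial (Bk.ext B.T P).C ℝ) (pr : Set (f.SC W → ℤ) → ℝ)
    (H : Set (f.SC W → ℤ)) (z : (f.SC W → ℤ) → B.SC W' → ℤ)
    (G : (f.SC W → ℤ) → D → Fm L (B.SC W')), Pg pr → Sb B W blk s n →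
    Ge s n W blk x W' col i m k c → Fintype.card D ≤ n → Pn B P n s →
    (∀ d U, (Pi d U).IsWeightedHomogeneous (Bk.ext B.T P).lev #U) → n ≤ h → f.Ok s h →
    Fintype.card f.T.C ≤ 2 ^ h →
    (∀ y ∈ H, (∀ w : B.SC W', (z y w : ℝ) =
        coeff (ind w.1.2) (Fz.Yb f.toBs W i (fun a => m (blk a)) f.θ (zc y) w.1.1)) ∧
      ∃ Y, Pw (b1 B) W' (blk ∘ col) (blk x) P n (z y) Y ∧ ∀ d,
        Mv.Rx (Bk.ext B.T P) W' (blk ∘ col) (fun _ => 1) (blk x) Y 1 (2 ^ n) fun ξ =>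
          G y d (Mv.pt (b1 B) W' (blk x) P ξ) -
            ∑ U ∈ W' with blk x ∈ U.image (blk ∘ col), Sy.sy (Bk.ext B.T P).lev (Pi d U) ξ U) →
    ∃ (P3 : Bk f.T.C Unit) (H3 : Set (f.SC W → ℤ)), H3 ⊆ H ∧ Pn f.toBs P3 (h ^ K) s ∧
      pr H ≤ 2 ^ h ^ K * pr H3 ∧ ∀ y ∈ H3,
        ka (b1 B) W' (blk ∘ col) (Fz.sm f m) (Fz.zx f.toBs W W' i (TT.cf y)) = TT.cf (z y) ∧
        ∃ Y3, Pw f.toBs W blk (blk x) P3 (h ^ K) y Y3 ∧ ∀ d, Rf f.toBs W blk (blk x) P3 (h ^ K) Y3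
          fun p => G y d (ka (b1 B) W' (blk ∘ col) (Fz.sm f m) (Fz.zx f.toBs W W' i p)) := by
  obtain ⟨K, pu⟩ := pul0 s
  refine ⟨(2 * s + 3) * (K + 1), by nlinarith, ?_⟩
  intro τ τ' L D _ _ _ _ _ _ _ B W blk x W' col i m k c n h f P Pi pr H z G pg hB g hD hP hom nh
    fo fc hH
  have h2 : 2 ≤ h := hB.two.trans nh
  have e1 : h ≤ h ^ (2 * s + 3) := Nat.le_self_pow (by omega) _
  have e2 : (h ^ (2 * s + 3)) ^ K ≤ h ^ ((2 * s + 3) * (K + 1)) := by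
    rw [← pow_mul]
    exact Nat.pow_le_pow_right (by omega) (Nat.mul_le_mul_left _ (by omega))
  have e3 : h ≤ h ^ ((2 * s + 3) * (K + 1)) := Nat.le_self_pow (by positivity) _
  have s1 := (sb hB g).mono nh
  obtain ⟨P1, p1, a1⟩ := abs0 τ' L (b1 B) W' (blk ∘ col) (blk x) P s h D Pi s1
    (Pn.mono (B := b1 B) ⟨hP.ok, hP.card, hP.lv⟩ nh le_rfl) (hD.trans nh) hom
  have so : (Fz.sm f m).Ok s h := Fz.sm_ok fo fun ℓ =>
    ⟨(g.m1 ℓ).1, ((g.m1 ℓ).2.trans nh).trans Nat.lt_two_pow_self.le⟩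
  have kz : ∀ y ∈ H, ka (b1 B) W' (blk ∘ col) (Fz.sm f m) (Fz.zx f.toBs W W' i (TT.cf y)) =
      TT.cf (z y) := fun y hy => by
    funext v
    cases v with
    | inl w => exact (Fz.ka_zx (b1 B) blk (blk ∘ col) f m (inj g) (blk_i g)
        (fun A a => (im g A).1 a) y w).trans ((hH y hy).1 w).symm
    | inr ℓ => rfl
  have ex1 : ∀ y, ∃ Y1, y ∈ H → Pw (b1 B) W' (blk ∘ col) (blk x) P1 (h ^ (2 * s + 3)) (z y) Y1 ∧
      ∀ d, Rf (b1 B) W' (blk ∘ col) (blk x) P1 (h ^ (2 * s + 3)) Y1 (G y d) := fun y => by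
    by_cases hy : y ∈ H
    · obtain ⟨-, Y, q1, q2⟩ := hH y hy
      obtain ⟨Y1, r1, r2⟩ := a1 (z y) Y (pw_mono q1 nh)
      exact ⟨Y1, fun _ => ⟨r1, fun d => r2 d _ ((q2 d).mono (pow_le_pow_right₀ one_le_two nh))⟩⟩
    · exact ⟨0, fun a => absurd a hy⟩
  choose Y1 hY using ex1
  obtain ⟨P2, H2, b1', b2, b3, b4⟩ := pu τ' L (b1 B) W' (blk ∘ col) (blk x) P1 (h ^ (2 * s + 3))
    (Fz.sm f m) _ pr H (fun y => zz f.toBs W W' i y) z Y1 pg (s1.mono e1) p1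
    (Idf.fr_mono hB.ok.old.ok.toTri so e1) (fc.trans (Nat.pow_le_pow_right two_pos e1)) fun y hy =>
      ⟨(congrArg _ (cf_zz f.toBs W W' i y)).trans (kz y hy), (hY y hy).1⟩
  have p2 : Pn f.toBs P2 (h ^ ((2 * s + 3) * (K + 1))) s :=
    Pn.mono (B := f.toBs) ⟨b2.ok, b2.card, b2.lv⟩ e2 le_rfl
  refine ⟨P2, H2, b1', p2, b3.trans (mul_le_mul_of_nonneg_right
    (pow_le_pow_right₀ one_le_two e2) (pg.nn _)), fun y hy => ⟨kz y (b1' hy), ?_⟩⟩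
  obtain ⟨Y2, c1, c2, c3⟩ := b4 y hy
  obtain ⟨Y3, d1, d2⟩ := rnm τ τ' L f.toBs W W' blk (blk ∘ col) i (blk x) P2 s _ y Y2
    (Idf.bs_mono fo.toOk e3) p2 hB.wf (wf g.al') (inj g) (blk_i g) (im g) (pw_mono c1 e2)
    fun c A t ht n => c2 t (fun w j => sum_eq_zero fun w0 k0 => absurd
      (by
        rw [← (mem_filter.1 k0).2.2] at j
        exact (mem_image.1 j).imp fun _ a => a.2) n) c A ht
  exact ⟨Y3, d1, fun d => d2 (fun p => G y d (ka (b1 B) W' (blk ∘ col) (Fz.sm f m) p))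
    ((c3 _ ((hY y (b1' hy)).2 d)).mono (pow_le_pow_right₀ one_le_two e2))⟩

end Crest.Agent.N49.Pk

end
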