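import Crest.Agent.N49.Pk.Cn0
import Crest.Agent.N49.Sw.Ent
import Crest.Agent.N49.Sw.Mrg
import Crest.Agent.N49.Sw.Kmq
import Crest.Agent.N49.Sw.Datv
import Crest.Agent.N49.Md.Morf
import Crest.Agent.N49.Md.Idf

/-!
# Row 49 (helper55): the old relation seen from the new frame
-/

set_option autoImplicit false
set_option linter.unusedSectionVars false

open MvPolynomial Finset

noncomputable section

namespace Crest.Agent.N49.Pk

open Po Tw Sd Sy Md Rm Mv Sw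

variable {τ τ' L : Type} [Fintype τ] [DecidableEq τ] [Fintype τ'] [DecidableEq τ'] [Fintype L]
  [DecidableEq L] {B : Bs L} {W : Finset (Finset τ)} {blk : τ → L}

/-- the old relation inside any pending system over the frame -/
theorem old_rf {s h n m : ℕ} {x : L} (f : Fr B.T τ L) (hB : B.Ok s h) (hf : f.Ok s h)
    (wf : Wf s W blk) (hc : Fintype.card f.T.C ≤ 2 ^ n) {y : f.SC W → ℤ} {y0 : B.SC W → ℤ}
    (e : ka B W blk f (TT.cf y) = TT.cf y0) {G : Fm L (B.SC W)}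
    (dat : (B.SY W blk).Dat univ {x} G) (rel : (B.SY W blk).Rel univ {x} y0 1 (2 ^ m) G)
    {P : Bk f.T.C Unit} {Y : (Bk.ext f.T P).C → Finset τ → ℤ}
    (old : ∀ w : f.SC W, Y (.inl w.1.1) w.1.2 = y w) :
    Rf f.toBs W blk x P (n + (3 * s + 2) * h + m) Y fun p => G (ka B W blk f p) := by
  have mo := morf τ L B W blk f s h n hB hf wf hc
  have r := mo.rel (Idf.sy_ok hB wf) (one_le_pow₀ one_le_two) e dat.2 rel
  rw [card_singleton, pow_one, ← pow_add] at r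
  exact Et.rx_ext P (rx1 τ L f.T _ W blk f.la x s 1 _ y _ _ hf.old.ok.toTri
    (fun c => Nat.lt_succ_of_le (hf.old.stg.le c).1) wf
    (fun ℓ => lt_of_lt_of_le (by positivity) (hf.la ℓ).1) old (mo.toLm.pull dat) r)

/-- relations over the same pending words add up -/
theorem rf_add {x : L} {P : Bk B.T.C Unit} {n1 n2 n3 n : ℕ} {y : B.SC W → ℤ}
    {Y : (Bk.ext B.T P).C → Finset τ → ℤ} (old : ∀ w : B.SC W, Y (.inl w.1.1) w.1.2 = y w)
    {G1 G2 G : Fm L (B.SC W)} {c : ℕ} (hc : c ≤ 2 ^ n3) (r1 : Rf B W blk x P n1 Y G1)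
    (r2 : Rf B W blk x P n2 Y G2) (e : ∀ p ∈ (B.SY W blk).Fib {x} y, G p = G1 p + c * G2 p)
    (k1 : n1 < n) (k2 : n3 + n2 < n) : Rf B W blk x P n Y G := by
  refine Mg.rx_add r1 r2 c (fun ξ f => e _ (Mg.pt_fib (P := P) (Y := Y) old f)) ?_
  obtain ⟨n, rfl⟩ : ∃ k, n = k + 1 := ⟨n - 1, by omega⟩
  have c1 : (c : ℝ) ≤ 2 ^ n3 := by exact_mod_cast hc
  have a : (2 : ℝ) ^ n1 ≤ 2 ^ n := pow_le_pow_right₀ one_le_two (by omega)
  have b : (2 : ℝ) ^ (n3 + n2) ≤ 2 ^ n := pow_le_pow_right₀ one_le_two (by omega)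
  have := mul_le_mul_of_nonneg_right c1 (show (0 : ℝ) ≤ 2 ^ n2 by positivity)
  rw [pow_add] at b
  rw [pow_succ]; linarith

theorem pw_mono {x : L} {P : Bk B.T.C Unit} {n n' : ℕ} {y : B.SC W → ℤ}
    {Y : (Bk.ext B.T P).C → Finset τ → ℤ} (h : Pw B W blk x P n y Y) (e : n ≤ n') :
    Pw B W blk x P n' y Y :=
  ⟨h.old, fun a A k1 k2 k3 => (h.err a A k1 k2 k3).trans (pow_le_pow_right₀ one_le_two e)⟩

theorem tyf_tr {C : Type} {x : τ} {Bt : Bk (VV C τ) τ} {q : (τ →₀ ℕ) → Prop}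
    {Γ : MvPolynomial (VV C τ ⊕ Bt.N) ℝ} (t : Tyf blk x Bt q Γ) {v : VV C τ}
    (hv : Sum.inl v ∈ Γ.vars) (ℓ : L) : v.2.mapDomain blk ℓ ≤ 1 := by
  classical
  obtain ⟨m, hm, k⟩ := (mem_vars_iff_mem_support _).1 hv
  refine le_trans (Finsupp.mapDomain_mono (f := blk) ?_ ℓ) ((t.ty m hm).1 ℓ)
  exact wt_le (w := Bt.wg Prod.snd) (isWeightedHomogeneous_monomial _ m (1 : ℝ) rfl)
    (v := .inl v) (by rw [vars_monomial one_ne_zero]; exact k)

/-- **the old form on the new fibre**, in the letters of the big alphabet -/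
theorem ev_old {W' : Finset (Finset τ')} {U : Finset (τ' →₀ ℕ)} (hU : U = W'.image ind)
    (la : L → ℝ) {col : τ' → τ} {i : τ → τ'} {x : τ} {s n h c : ℕ} {k : τ' → ℕ} {m : L → ℕ}
    (f : Fr B.T τ' L) (hB : B.Ok s n) (hf : f.Ok s n) (hf' : (Fz.fm f k col c).Ok s h)
    (hB' : B.Ok s h) (wf : Wf s W blk) (al : Al s W blk x) (al' : Al s W' (blk ∘ col) (i x))
    (ci : ∀ a, col (i a) = a) (hm : ∀ a, m (blk a) * k (i a) = c) {Bt : Bk (VV B.T.C τ) τ}
    {q : (τ →₀ ℕ) → Prop} {Γ : MvPolynomial (VV B.T.C τ ⊕ Bt.N) ℝ} (ty : Tyd blk x Bt)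
    (t : Tyf blk x Bt q Γ) {y : f.SC W → ℤ} {y0 : B.SC W → ℤ}
    (e : ka B W blk (Fz.fm f k col c) (TT.cf y) = TT.cf y0) {kk : (sp Bt col U).N → ℤ}
    (om : ∀ a, (Bt.om (uv B W (TT.cf y0)) a : ℝ) = ∑ z : (sp Bt col U).N with z.1.1 = a,
      (smat (Cn.mm col fun t => k t) (Bt.wd a) z.1.2.1 : ℝ) * kk z)
    {p : f.SC W ⊕ L → ℝ} (hp : p ∈ (f.SY W blk).Fib {blk x} y) :
    Bt.ev (uv B W (ka B W blk (Fz.fm f k col c) p)) Γ =
      eval (Sum.elim (uv { B with la := la } W' (ka { B with la := la } W' (blk ∘ col) (Fz.sm f m)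
        (Fz.zx f.toBs W W' i p))) fun a => (kk a : ℝ))
        (aeval (Cn.sbb Bt col U (Cn.mm col fun t => k t)) Γ) := by
  subst hU
  rw [Cn.eval_sbb]
  have mo := (morf τ L B W blk _ s h _ hB' hf' wf (Nat.lt_two_pow_self).le).toLm
  have fb := mo.fib e hp
  have o := (datv τ L B W blk x s h Bt hB' wf al ty).1 _ (TT.cf y0) fun w z => fb.1 w
    (disjoint_singleton_right.2 fun u => by
      obtain ⟨a, b, u⟩ := mem_image.1 u
      exact z (al.one a u ▸ b))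
  refine eval_congr fun v hv => ?_
  rcases v with v | a
  · exact kmq τ τ' L B la W W' blk col i x s n c k m f p v hB hf al al' ci hm (tyf_tr t hv)
  · exact (congrArg (fun z : Bt.N → ℤ => (z a : ℝ)) o).trans (om a)

end Crest.Agent.N49.Pk

end
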