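import Crest.Agent.N49.Pk.Defs
import Crest.Agent.N49.Pk.Geo
import Crest.Agent.N49.Pk.Uvx
import Crest.Agent.N49.Sw.Datv
import Crest.Agent.N49.Sw.Kmq
import Crest.Agent.N49.Sw.Rnm
import Crest.Agent.N49.Sw.Abs0
import Crest.Agent.N49.Sw.Mrg
import Crest.Agent.N49.Sw.Pul0
import Crest.Agent.N49.Sw.Rspl
import Crest.Agent.N49.Sw.Frz3
import Crest.Agent.N49.Top.Pl

/-!
# Row 49 (helper56): the frame part of the packing (`PK2`)
-/

set_option autoImplicit false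
set_option linter.unusedSectionVars false
set_option maxHeartbeats 400000

open Matrix MvPolynomial Finset

noncomputable section

namespace Crest.Agent.N49.Pk

open Po Tw Sd Sy Md Rm Mv Sw N49.Top
open Cn (mm)

namespace P2

variable {τ τ' L : Type} [Fintype τ] [DecidableEq τ] [Fintype τ'] [DecidableEq τ'] [Fintype L]
  [DecidableEq L]

section mono
variable {B : Bs L} {W : Finset (Finset τ)} {blk : τ → L} {x : L} {P : Bk B.T.C Unit} {n n' : ℕ}
  {y : B.SC W → ℤ} {Y : (Bk.ext B.T P).C → Finset τ → ℤ}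

theorem pw_mono (h : Pw B W blk x P n y Y) (e : n ≤ n') : Pw B W blk x P n' y Y :=
  ⟨h.old, fun a A b c d => (h.err a A b c d).trans (pow_le_pow_right₀ one_le_two e)⟩

theorem rf_mono {G : Fm L (B.SC W)} (h : Rf B W blk x P n Y G) (e : n ≤ n') :
    Rf B W blk x P n' Y G := Mv.Rx.mono h (pow_le_pow_right₀ one_le_two e)

/-- a relation of the symbol tower is added to a relation on the extended fibre -/
theorem rf_add {s h : ℕ} {G G1 G2 : Fm L (B.SC W)} (o : B.Ok s h) (w : Wf s W blk)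
    (p : Pw B W blk x P n y Y) (d : (B.SY W blk).Dat univ {x} G1)
    (r : (B.SY W blk).Rel univ {x} y 1 (2 ^ n) G1) (r' : Rf B W blk x P n Y G2)
    (e : ∀ p ∈ (B.SY W blk).Fib {x} y, G p = G1 p + G2 p) : Rf B W blk x P (n + 1) Y G :=
  Mg.rx_add (Et.rx_ext P (rx1 τ L B.T _ W blk B.la x s 1 _ y _ G1 o.old.ok.toTri
    (fun c => Nat.lt_succ_of_le (o.old.stg.le c).1) w
    (fun ℓ => lt_of_lt_of_le (by positivity) (o.la ℓ).1) p.old d r)) r' 1
    (fun ξ f => (e _ (Mg.pt_fib p.old f)).trans (by rw [Nat.cast_one, one_mul]; rfl))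
    (by rw [pow_succ]; push_cast; linarith)

end mono

theorem cf_zz (B : Bs L) (W : Finset (Finset τ)) (W' : Finset (Finset τ')) (i : τ → τ')
    (y : B.SC W → ℤ) : TT.cf (zz B W W' i y) = Fz.zx B W W' i (TT.cf y) := by
  funext v
  rcases v with w | l
  exacts [Int.cast_sum _ _, rfl]

theorem zz_out (B : Bs L) (W : Finset (Finset τ)) (W' : Finset (Finset τ')) (i : τ → τ')
    (y : B.SC W → ℤ) {t : τ'} (h : t ∉ Set.range i) (w : B.SC W') (k : t ∈ w.1.2) :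
    zz B W W' i y w = 0 := sum_eq_zero fun w0 e => by
  rw [← (mem_filter.1 e).2.2] at k
  obtain ⟨a, -, b⟩ := mem_image.1 k
  exact absurd ⟨a, b⟩ h

theorem tyf_tr {C : Type} {blk : τ → L} {x : τ} {B : Bk (VV C τ) τ} {q : (τ →₀ ℕ) → Prop}
    {Γ : MvPolynomial (VV C τ ⊕ B.N) ℝ} (h : Tyf blk x B q Γ) {v : VV C τ}
    (k : Sum.inl v ∈ Γ.vars) (ℓ : L) : v.2.mapDomain blk ℓ ≤ 1 := by
  classical
  obtain ⟨m, hm, k⟩ := (mem_vars_iff_mem_support _).1 k
  refine le_trans (Finsupp.mapDomain_mono (f := blk) ?_ ℓ) ((h.ty m hm).1 ℓ)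
  rw [Finsupp.weight_apply, Finsupp.sum]
  refine le_trans ?_ (single_le_sum (f := fun i => m i • B.wg Prod.snd i) (fun _ _ => zero_le) k)
  obtain ⟨j, e⟩ := Nat.exists_eq_succ_of_ne_zero (Finsupp.mem_support_iff.1 k)
  rw [e, succ_nsmul]
  exact le_add_self

theorem cut {a b c : ℝ} {m A k r N : ℕ} (h : (1 : ℝ) / 2 ^ m ≤ a) (e : a ≤ 2 ^ r * b)
    (e' : b ≤ (2 ^ A) ^ k * c) (u : m + r + A * k ≤ N) : (1 : ℝ) / 2 ^ N ≤ c := by
  have := pr_cut (N := N) (pr_cut (A := r) (k := 1) (N := m + r)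
    ((_root_.one_div_pow ..).trans_le h) (by rwa [pow_one]) (by omega)) e' u
  rwa [_root_.one_div_pow] at this

end P2

open P2 in
/-- **the frame part** -/
theorem pk2b (hU : UVX) (s M : ℕ) : PK2 s M := by
  obtain ⟨e0, fz⟩ := Fz.frzL s M
  obtain ⟨Kp, pu⟩ := pul0 s
  obtain ⟨e, he⟩ : Pl fun y => 2 * (y ^ (2 * s + 3) + y ^ e0 + y) ^ Kp +
      (3 * s + 5) * (y ^ (2 * s + 3) + y ^ e0 + y) + (2 ^ s + 2) * y + 1 := by pl
  refine ⟨e, fun K' => ?_⟩
  obtain ⟨K, fz⟩ := fz K'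
  refine ⟨K, ?_⟩
  intro τ τ' L D _ _ _ _ _ _ _ B W blk x W' col i hi m k c n U' κ A H F Bt Γ p p' B1 o Γ1 G1 P Pi
    sb eM ge eU hD hκ rg hA old t1 c1 dn g1 pn hPi hy
  subst eU
  have n2 := sb.two
  have k1 := he n n2
  beta_reduce at k1
  have wf' := Gy.al_wf ge.al'
  have im := Gy.img_iff ge.al ge.al' ge.ci
  have hb : ∀ a, (blk ∘ col) (i a) = blk a := fun a => congrArg blk (ge.ci a)
  have sb1 : Sb (b1 B) W' (blk ∘ col) s n := ⟨n2, ⟨sb.ok.old, fun _ =>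
    ⟨(div_le_one (by positivity)).2 (one_le_pow₀ one_le_two), one_le_pow₀ one_le_two⟩⟩, wf',
    sb.cC, ge.cd⟩
  obtain ⟨P1, p1, ab⟩ := abs0 τ' L (b1 B) W' (blk ∘ col) (blk x) P s n D Pi sb1
    ⟨pn.ok, pn.card, pn.lv⟩ hD hPi
  obtain ⟨f, H1, f1, -, -, -, -, -, f2, f3, f4, f5, f6, f7, f8, -, f9⟩ := fz τ τ' L B W blk W' col i
    (fun a => m (blk a)) k c n κ A sb eM ⟨wf'.dw, wf'.le, ge.ci, fun A a => (im A).2 a,
      fun A a b => Gy.dn_col ge.al ge.al' a b, fun a => ge.m1 _, ge.k1, ge.c1, ge.mu, ge.cd⟩ hκ rg hA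
  generalize hN : n ^ (2 * s + 3) + n ^ e0 + n = N at k1
  have tri := sb.ok.old.ok.toTri
  have oB : B.Ok s N := Idf.bs_mono sb.ok (by omega)
  have of : f.Ok s N := Idf.fr_mono tri f1 (by omega)
  have of' : (Fz.sm f m).Ok s N := Fz.sm_ok of fun l => ⟨(ge.m1 l).1,
    (ge.m1 l).2.trans ((show n ≤ N by omega).trans Nat.lt_two_pow_self.le)⟩
  have of0 : (Fz.fm f k col c).Ok s N := Idf.fr_mono tri f6 (by omega)
  have cN : Fintype.card f.T.C ≤ 2 ^ N := f4.trans (Nat.pow_le_pow_right two_pos (by omega))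
  have pg := pg_tt (Idf.sy_ok of.toOk sb.wf)
  have uv1 := fun y => ((hU τ' L B W' _ s n sb.ok rfl).1 (dk κ) y)
  have key : ∀ y : f.SC W → ℤ, ∃ (yb : B.SC W' → ℤ) (kk : B1.N → ℤ)
      (Y : (Bk.ext B.T P1).C → Finset τ' → ℤ), y ∈ H1 →
      (ka (b1 B) W' (blk ∘ col) (Fz.sm f m) (TT.cf (zz f.toBs W W' i y)) = TT.cf yb ∧
        Pw (b1 B) W' (blk ∘ col) (blk x) P1 N yb Y) ∧
      (∀ a, |eval (Sum.elim (uv B W' (TT.cf yb)) fun a => (kk a : ℝ)) (B1.Θ a) - o a - kk a| ≤ 1) ∧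
      (∀ d, Rf (b1 B) W' (blk ∘ col) (blk x) P1 N Y fun p =>
        eval (Sum.elim (uv (b1 B) W' p) fun a => (kk a : ℝ)) (G1 d)) ∧
      ∃ y0 ∈ H, ka B W blk (Fz.fm f k col c) (TT.cf y) = TT.cf y0 ∧ ∀ d z,
        eval (Sum.elim (sbv (mm col fun t => k t) (W'.image ind) z)
          fun a => (Bt.om (uv B W (TT.cf y0)) a : ℝ)) (Γ d) =
        eval (Sum.elim z fun a => (kk a : ℝ)) (Γ1 d) +
          eval (Sum.elim z fun a => (kk a : ℝ)) (G1 d) := fun y => by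
    by_cases h : y ∈ H1
    swap
    · exact ⟨0, 0, 0, fun z => absurd z h⟩
    obtain ⟨y', a1, a2, a3⟩ := f9 y h
    obtain ⟨y0, b1, b2, kk, Y, b3, b4, b5⟩ := hy y' a1
    obtain ⟨Y', d1, d2⟩ := ab _ Y b4
    refine ⟨_, kk, Y', fun _ => ⟨⟨funext fun v => ?_, pw_mono d1 (by omega)⟩, fun a => ?_,
      fun d => rf_mono (d2 d _ (b5 d).1) (by omega), y0, b1, funext fun v => ?_,
      fun d => (b5 d).2⟩⟩
    · refine (congrFun (congrArg (ka (Pk.b1 B) W' (blk ∘ col) (Fz.sm f m))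
        (cf_zz f.toBs W W' i y)) v).trans ?_
      rcases v with w | l
      · exact (Fz.ka_zx B blk (blk ∘ col) f m hi hb (fun A a => (im A).1 a) y w).trans
          ((a2 _ _ (mem_image_of_mem _ w.2.2.1)).symm.trans ((uv1 y').2 _).symm)
      · rfl
    · rw [(uv1 y').1]; exact b3 a
    · rcases v with w | l
      · exact (a3 w).trans (b2 w).symm
      · rfl
  choose yb kk Y key using key
  obtain ⟨P2, H2, h1, h2, h3, h4⟩ := pu τ' L (b1 B) W' (blk ∘ col) (blk x) P1 N (Fz.sm f m) _ _ H1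
    (fun y => zz f.toBs W W' i y) yb Y pg (sb1.mono (by omega)) (p1.mono (by omega) le_rfl) of' cN
    fun y h => (key y h).1
  obtain ⟨B2, Γ2, H3, j1, j2, j3, j4, j5, j6⟩ := rspl τ τ' L D B W W' blk (blk ∘ col) i hi x s N
    (Fz.sm f m) B1 o Γ1 p' _ _ H2 id kk pg oB of' ge.al ge.al' hb t1 dn g1 fun y h a => by
      have := (congrArg (ka (b1 B) W' (blk ∘ col) (Fz.sm f m))
        (cf_zz f.toBs W W' i y)).symm.trans (key y (h1 h)).1.1
      exact (congrArg (fun z => |eval (Sum.elim (uv B W' z) fun a => (kk y a : ℝ)) (B1.Θ a) -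
        o a - kk y a|) this).trans_le ((key y (h1 h)).2.1 a)
  have mo := morf _ _ B W blk (Fz.fm f k col c) s N N oB of0 sb.wf cN
  have dv := datv _ _ B W blk x s n Bt sb.ok sb.wf ge.al old.tyd
  have u1 := Nat.mul_le_mul_left (2 ^ s + 2) c1
  have u2 := Nat.mul_le_mul_right (2 ^ s) c1
  generalize N ^ Kp = N3 at *
  have u3 : N3 + (3 * s + 4) * N + 1 ≤ n ^ e := by rw [add_mul] at k1 ⊢; omega
  have u4 : n ^ e0 ≤ n ^ e := by rw [add_mul] at k1; omega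
  refine ⟨Fz.fm f k col c, H3, Idf.fr_mono tri f6 u4, f2, f3.mp, f7.mono u4,
    f4.trans (Nat.pow_le_pow_right two_pos u4), f5, cut f8 h3 j2 (by rw [add_mul] at k1; omega),
    fun y h => let ⟨y0, a, b, _⟩ := (key y (h1 (j1 h))).2.2.2; ⟨y0, a, b⟩,
    P2, B2, Γ2, ⟨h2.ok, h2.card.trans (by omega), h2.lv⟩, j3,
    j4.trans (by rw [add_mul (2 ^ s), mul_comm (2 ^ s)] at k1; omega), j5, fun y h => ?_⟩
  obtain ⟨Y2, a1, a2, a3⟩ := h4 y (j1 h)
  obtain ⟨-, -, b1, y0, b2, b3, b4⟩ := key y (h1 (j1 h))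
  have v1 : N3 ≤ N3 + (3 * s + 4) * N := Nat.le_add_right _ _
  have v2 : N ≤ N3 + (3 * s + 4) * N := by rw [add_mul]; omega
  obtain ⟨Y3, d1, d2⟩ := rnm τ τ' L f.toBs W W' blk (blk ∘ col) i (blk x) P2 s _ y Y2
    (Idf.bs_mono of.toOk v2) ⟨h2.ok, h2.card.trans v1, h2.lv⟩ sb.wf wf' hi hb im (pw_mono a1 v1)
    fun c A t a b => a2 t (zz_out f.toBs W W' i y b) c A a
  refine ⟨Y3, d1.old, (pw_mono d1 (by omega)).err, fun d => ?_⟩
  have dd := (old.dat d).sub (dv.2 _ _ (old.tyf d))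
  refine rf_mono (B := f.toBs) (G := fun p => F d (ka B W blk (Fz.fm f k col c) p) -
    B2.ev (uv f.toBs W p) (Γ2 d)) (rf_add of.toOk sb.wf d1 (mo.toLm.pull dd)
    ((mo.rel (Idf.sy_ok sb.ok sb.wf) (one_le_pow₀ one_le_two) b3 dd.2 (old.rel y0 b2 d)).mono ?_)
    (d2 _ (rf_mono (a3 _ (b1 d)) v1)) fun z hz => ?_) u3
  · rw [card_singleton, pow_one, ← pow_add]
    exact pow_le_pow_right₀ one_le_two (by rw [add_mul, add_mul]; omega)
  · have q1 := j6 y h z hz d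
    have q2 := b4 d (uv B W' (ka B W' (blk ∘ col) (Fz.sm f m) (Fz.zx f.toBs W W' i z)))
    have q3 : Bt.ev (uv B W (ka B W blk (Fz.fm f k col c) z)) (Γ d) =
        eval (Sum.elim (sbv (mm col fun t => k t) (W'.image ind)
          (uv B W' (ka B W' (blk ∘ col) (Fz.sm f m) (Fz.zx f.toBs W W' i z))))
          fun a => (Bt.om (uv B W (TT.cf y0)) a : ℝ)) (Γ d) := by
      refine eval_congr fun v hv => ?_
      rcases v with v | a
      · exact kmq τ τ' L B B.la W W' blk col i x s N c k m f z v oB of ge.al ge.al' ge.ci ge.mu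
          (tyf_tr (old.tyf d) hv)
      · refine congrArg Int.cast (congrFun (dv.1 _ _ fun w hw => ?_) a)
        refine (mo.toLm.fib b3 hz).1 w (disjoint_singleton_right.2 fun u => ?_)
        obtain ⟨a, r1, r2⟩ := mem_image.1 u
        exact hw (ge.al.one a r2 ▸ r1)
    have k : ∀ {a b c u v : ℝ} (F : ℝ), a = u + v → u = b → v = c → F - b = F - a + c := by
      rintro _ _ _ _ _ _ rfl rfl rfl
      ring
    exact k _ (q3.trans q2) q1 rfl

/-- **the frame part**, unconditionally -/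
theorem pk2A (s M : ℕ) : PK2 s M := pk2b uvx s M

end Crest.Agent.N49.Pk

end
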